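import Vale.Agent.P213.Defs

/-!
Elementary identities in an omega-category.
-/

namespace Vale.Agent.P213

open CategoryTheory

universe u v

namespace OmCat

variable (X : OmCat.{u})

theorem s_s_of_le {i j : ℕ} (x : X.carrier) (h : i ≤ j) : X.s j (X.s i x) = X.s i x := by
  rw [X.ss, min_eq_right h]

theorem s_t_of_le {i j : ℕ} (x : X.carrier) (h : i ≤ j) : X.s j (X.t i x) = X.t i x := by
  rw [X.st, if_neg (not_lt.2 h)]

theorem t_s_of_le {i j : ℕ} (x : X.carrier) (h : i ≤ j) : X.t j (X.s i x) = X.s i x := by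
  rw [X.ts, if_neg (not_lt.2 h)]

theorem t_t_of_le {i j : ℕ} (x : X.carrier) (h : i ≤ j) : X.t j (X.t i x) = X.t i x := by
  rw [X.tt, min_eq_right h]

theorem s_s_of_lt {i j : ℕ} (x : X.carrier) (h : i < j) : X.s i (X.s j x) = X.s i x := by
  rw [X.ss, min_eq_left h.le]

theorem s_t_of_lt {i j : ℕ} (x : X.carrier) (h : i < j) : X.s i (X.t j x) = X.s i x := by
  rw [X.st, if_pos h]

theorem t_s_of_lt {i j : ℕ} (x : X.carrier) (h : i < j) : X.t i (X.s j x) = X.t i x := by
  rw [X.ts, if_pos h]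

theorem t_t_of_lt {i j : ℕ} (x : X.carrier) (h : i < j) : X.t i (X.t j x) = X.t i x := by
  rw [X.tt, min_eq_left h.le]

theorem s_comp_of_le {i n : ℕ} (x y : X.carrier) (h : X.t n x = X.s n y) (hi : i ≤ n) :
    X.s i (X.comp n x y) = X.s i x := by rw [X.s_comp i n x y h, if_pos hi]

theorem t_comp_of_le {i n : ℕ} (x y : X.carrier) (h : X.t n x = X.s n y) (hi : i ≤ n) :
    X.t i (X.comp n x y) = X.t i y := by rw [X.t_comp i n x y h, if_pos hi]

theorem s_comp_of_lt {i n : ℕ} (x y : X.carrier) (h : X.t n x = X.s n y) (hi : n < i) :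
    X.s i (X.comp n x y) = X.comp n (X.s i x) (X.s i y) := by
  rw [X.s_comp i n x y h, if_neg (not_le.2 hi)]

theorem t_comp_of_lt {i n : ℕ} (x y : X.carrier) (h : X.t n x = X.s n y) (hi : n < i) :
    X.t i (X.comp n x y) = X.comp n (X.t i x) (X.t i y) := by
  rw [X.t_comp i n x y h, if_neg (not_le.2 hi)]

theorem compat_s {i j : ℕ} {x y : X.carrier} (h : X.t i x = X.s i y) (hij : i < j) :
    X.t i (X.s j x) = X.s i (X.s j y) := by rw [X.t_s_of_lt x hij, X.s_s_of_lt y hij, h]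

theorem compat_t {i j : ℕ} {x y : X.carrier} (h : X.t i x = X.s i y) (hij : i < j) :
    X.t i (X.t j x) = X.s i (X.t j y) := by rw [X.t_t_of_lt x hij, X.s_t_of_lt y hij, h]

theorem t_eq_self_iff {i : ℕ} {x : X.carrier} : X.t i x = x ↔ X.s i x = x := by
  constructor
  · intro h; rw [← h, X.s_t_of_le x le_rfl]
  · intro h; rw [← h, X.t_s_of_le x le_rfl]

theorem s_eq_self_mono {i j : ℕ} {x : X.carrier} (h : X.s i x = x) (hij : i ≤ j) :
    X.s j x = x := by rw [← h, X.s_s_of_le x hij]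

theorem t_eq_self_mono {i j : ℕ} {x : X.carrier} (h : X.s i x = x) (hij : i ≤ j) :
    X.t j x = x := X.t_eq_self_iff.2 (X.s_eq_self_mono h hij)

/-- Composition at or above the dimension of the first cell is trivial. -/
theorem comp_eq_right {i : ℕ} {x y : X.carrier} (h : X.t i x = X.s i y) (hx : X.s i x = x) :
    X.comp i x y = y := by
  rw [show x = X.s i y from (X.t_eq_self_iff.2 hx).symm.trans h]
  exact X.id_comp i y

theorem s_eq_self_comp {i k : ℕ} {x y : X.carrier} (h : X.t i x = X.s i y)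
    (hx : X.s k x = x) (hy : X.s k y = y) : X.s k (X.comp i x y) = X.comp i x y := by
  by_cases hik : i < k
  · rw [X.s_comp_of_lt x y h hik, hx, hy]
  · rw [X.comp_eq_right h (X.s_eq_self_mono hx (by omega))]
    exact hy

theorem map_compat {Y : OmCat.{v}} (f : Fun X Y) {i : ℕ} {x y : X.carrier}
    (h : X.t i x = X.s i y) : Y.t i (f.toFun x) = Y.s i (f.toFun y) := by
  rw [← f.map_t, ← f.map_s, h]

end OmCat

@[simp] theorem id_toFun (X : OmCat.{u}) (x : X.carrier) : Fun.toFun (𝟙 X) x = x := rfl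

@[simp] theorem comp_toFun {X Y Z : OmCat.{u}} (f : X ⟶ Y) (g : Y ⟶ Z) (x : X.carrier) :
    Fun.toFun (f ≫ g) x = Fun.toFun g (Fun.toFun f x) := rfl

theorem hom_ext' {X Y : OmCat.{u}} {f g : X ⟶ Y} (h : ∀ x, Fun.toFun f x = Fun.toFun g x) :
    f = g := Fun.ext h

theorem isNCat_top (X : OmCat.{u}) : IsNCat ⊤ X := fun k hk => absurd hk (by simp)

/-- The inclusion of `n`-categories in omega-categories. -/
abbrev NCat.incl (n : ℕ∞) : NCat.{u} n ⥤ OmCat.{u} := (IsNCat.{u} n).ι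

end Vale.Agent.P213
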