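import Vale.Agent.P213.Base
import Vale.Agent.P213.Cat.Basic

/-!
The coreflection of omega-categories onto `n`-categories.
-/

namespace Vale.Agent.P213

open CategoryTheory

universe u

namespace OmCat

variable {X : OmCat.{u}}

theorem closed_trunc (n : ℕ∞) :
    X.Closed (fun x => ∀ k : ℕ, n ≤ (k : ℕ∞) → X.s k x = x) where
  s i x hx k hk := by
    rcases Nat.lt_or_ge k i with h | h
    · rw [X.s_eq_self_mono (hx k hk) h.le]; exact hx k hk
    · exact X.s_s_of_le x h
  t i x hx k hk := by
    rcases Nat.lt_or_ge k i with h | h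
    · rw [X.t_eq_self_mono (hx k hk) h.le]; exact hx k hk
    · exact X.s_t_of_le x h
  comp i x y hx hy h k hk := X.s_eq_self_comp h (hx k hk) (hy k hk)

/-- The cells of dimension at most `n`. -/
noncomputable def truncCells (n : ℕ∞) (X : OmCat.{u}) : OmCat.{u} := X.sub _ (closed_trunc n)

theorem isNCat_truncCells (n : ℕ∞) (X : OmCat.{u}) : IsNCat n (truncCells n X) :=
  fun i hi x => Subtype.ext (x.2 i hi)

/-- Functors out of an `n`-category land in the cells of dimension at most `n`. -/
noncomputable def truncCellsEquiv (n : ℕ∞) (Y : NCat.{u} n) (X : OmCat.{u}) :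
    ((NCat.incl n).obj Y ⟶ X) ≃ (Y ⟶ ⟨truncCells n X, isNCat_truncCells n X⟩) where
  toFun f := ObjectProperty.homMk (OmCat.toSub X f _ (closed_trunc n) fun y k hk =>
    (f.map_s k y).symm.trans (congrArg f.toFun (Y.property k hk y)))
  invFun g := g.hom ≫ X.subι _ (closed_trunc n)
  left_inv f := hom_ext' fun _ => rfl
  right_inv g := ObjectProperty.hom_ext _ (hom_ext' fun _ => rfl)

end OmCat

/-- The coreflection: cells of dimension at most `n`. -/
noncomputable def NCat.coreflector (n : ℕ∞) : OmCat.{u} ⥤ NCat.{u} n :=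
  Adjunction.rightAdjointOfEquiv (F := NCat.incl n)
    (fun Y X => OmCat.truncCellsEquiv n Y X)
    (fun _ _ _ _ _ => ObjectProperty.hom_ext _ (hom_ext' fun _ => rfl))

/-- The inclusion of `n`-categories is left adjoint to the coreflection. -/
noncomputable def NCat.inclAdjCoreflector (n : ℕ∞) : NCat.incl.{u} n ⊣ NCat.coreflector n :=
  Adjunction.adjunctionOfEquivRight (fun Y X => OmCat.truncCellsEquiv n Y X)
    (fun _ _ _ _ _ => ObjectProperty.hom_ext _ (hom_ext' fun _ => rfl))

instance (n : ℕ∞) : (NCat.incl.{u} n).IsLeftAdjoint :=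
  (NCat.inclAdjCoreflector n).isLeftAdjoint

end Vale.Agent.P213
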