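import Vale.Agent.P213.Cat.Presentation
import Vale.Agent.P213.Cat.Sub

/-!
Colimits in omega-categories and in `n`-categories, and the reflection onto `n`-categories.
-/

namespace Vale.Agent.P213

open CategoryTheory CategoryTheory.Limits

universe u

namespace OmCat

open scoped Classical in
/-- A dimension bound of a cell, capped at `n`. -/
noncomputable def dimBound (n : ℕ∞) (X : OmCat.{u}) (x : X.carrier) : ℕ :=
  if n = ⊤ then Nat.find (X.bounded x) else min (Nat.find (X.bounded x)) n.toNat

theorem dimBound_le (n : ℕ∞) (X : OmCat.{u}) (x : X.carrier) : (dimBound n X x : ℕ∞) ≤ n := by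
  unfold dimBound
  split
  · next h => rw [h]; exact le_top
  · next h =>
    calc ((min _ n.toNat : ℕ) : ℕ∞) ≤ (n.toNat : ℕ∞) := by exact_mod_cast min_le_right _ _
      _ = n := ENat.coe_toNat h

theorem map_dimBound {n : ℕ∞} {X Y : OmCat.{u}} (hY : IsNCat n Y) (f : X ⟶ Y) (x : X.carrier) :
    Y.s (dimBound n X x) (Fun.toFun f x) = Fun.toFun f x := by
  classical
  have h1 : Y.s (Nat.find (X.bounded x)) (Fun.toFun f x) = Fun.toFun f x :=
    (f.map_s _ x).symm.trans (congrArg f.toFun (Nat.find_spec (X.bounded x)))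
  unfold dimBound
  split
  · exact h1
  · next h =>
    rcases le_total (Nat.find (X.bounded x)) n.toNat with h' | h'
    · rw [min_eq_left h']; exact h1
    · rw [min_eq_right h']
      exact hY _ (by rw [ENat.coe_toNat h]) _

variable {J : Type u} [Category.{u} J] (n : ℕ∞) (F : J ⥤ OmCat.{u})

/-- Generators of the colimit. -/
abbrev ColimGen : Type u := Σ j, (F.obj j).carrier

/-- Relations of the colimit. -/
inductive ColimRel : Tm (ColimGen F) → Tm (ColimGen F) → Prop
  | src (j : J) (i : ℕ) (x : (F.obj j).carrier) :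
      ColimRel (.src i (.gen ⟨j, x⟩)) (.gen ⟨j, (F.obj j).s i x⟩)
  | tgt (j : J) (i : ℕ) (x : (F.obj j).carrier) :
      ColimRel (.tgt i (.gen ⟨j, x⟩)) (.gen ⟨j, (F.obj j).t i x⟩)
  | comp (j : J) (i : ℕ) (x y : (F.obj j).carrier) (h : (F.obj j).t i x = (F.obj j).s i y) :
      ColimRel (.comp i (.gen ⟨j, x⟩) (.gen ⟨j, y⟩)) (.gen ⟨j, (F.obj j).comp i x y⟩)
  | map {j j' : J} (f : j ⟶ j') (x : (F.obj j).carrier) :
      ColimRel (.gen ⟨j, x⟩) (.gen ⟨j', Fun.toFun (F.map f) x⟩)

/-- The presentation of the colimit among `n`-categories. -/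
noncomputable def colimPres : Presentation.{u} where
  Gen := ColimGen F
  dim g := dimBound n (F.obj g.1) g.2
  rel := ColimRel F

/-- The colimit among `n`-categories. -/
noncomputable def colimCat : OmCat.{u} := (colimPres n F).cat

theorem isNCat_colimCat : IsNCat n (colimCat n F) :=
  Presentation.isNCat_cat _ fun g => dimBound_le n (F.obj g.1) g.2

theorem colimRel_comp_ok (j : J) {i : ℕ} {x y : (F.obj j).carrier}
    (h : (F.obj j).t i x = (F.obj j).s i y) :
    (colimPres n F).Rel (.tgt i (.gen ⟨j, x⟩)) (.src i (.gen ⟨j, y⟩)) := by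
  have a : (colimPres n F).Rel (.tgt i (.gen ⟨j, x⟩)) (.gen ⟨j, (F.obj j).t i x⟩) :=
    .rel (ColimRel.tgt j i x) (.tgtCongr (.gen _)) (.gen _)
  have b : (colimPres n F).Rel (.src i (.gen ⟨j, y⟩)) (.gen ⟨j, (F.obj j).s i y⟩) :=
    .rel (ColimRel.src j i y) (.srcCongr (.gen _)) (.gen _)
  rw [h] at a
  exact a.trans b.symm

/-- The colimit injections. -/
noncomputable def colimι (j : J) : F.obj j ⟶ colimCat n F where
  toFun x := (colimPres n F).cell ⟨j, x⟩
  map_s i x := ((Presentation.srcQ_mk i _ _).trans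
    (Presentation.mk_eq (.rel (ColimRel.src j i x) (.srcCongr (.gen _)) (.gen _)))).symm
  map_t i x := ((Presentation.tgtQ_mk i _ _).trans
    (Presentation.mk_eq (.rel (ColimRel.tgt j i x) (.tgtCongr (.gen _)) (.gen _)))).symm
  map_comp i x y h := ((Presentation.compQ_cls (colimRel_comp_ok n F j h)).trans
    (Presentation.mk_eq (.rel (ColimRel.comp j i x y h)
      (.compCongr (.gen _) (.gen _) (colimRel_comp_ok n F j h)) (.gen _)))).symm

theorem colimι_naturality {j j' : J} (f : j ⟶ j') :
    F.map f ≫ colimι n F j' = colimι n F j := by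
  apply hom_ext'
  intro x
  exact (Presentation.mk_eq (.rel (ColimRel.map f x) (.gen _) (.gen _))).symm

variable {n F}
variable {Y : OmCat.{u}} (hY : IsNCat n Y) (t : ∀ j, F.obj j ⟶ Y)
  (ht : ∀ (j j' : J) (f : j ⟶ j'), F.map f ≫ t j' = t j)

include hY ht in
theorem colimDesc_valid :
    Presentation.Valid (P := colimPres n F) (fun g => Fun.toFun (t g.1) g.2) where
  dim g := map_dimBound hY (t g.1) g.2
  rel {a b} h y z hy hz := by
    cases h with
    | src j i x =>
      obtain rfl := hy.unique _ (Presentation.Ev.src (Presentation.Ev.gen _))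
      obtain rfl := hz.unique _ (Presentation.Ev.gen _)
      exact ((t j).map_s i x).symm
    | tgt j i x =>
      obtain rfl := hy.unique _ (Presentation.Ev.tgt (Presentation.Ev.gen _))
      obtain rfl := hz.unique _ (Presentation.Ev.gen _)
      exact ((t j).map_t i x).symm
    | comp j i x y h =>
      obtain rfl := hy.unique _ (Presentation.Ev.comp ((F.obj j).map_compat (t j) h)
        (Presentation.Ev.gen _) (Presentation.Ev.gen _))
      obtain rfl := hz.unique _ (Presentation.Ev.gen _)
      exact ((t j).map_comp i x y h).symm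
    | map f x =>
      obtain rfl := hy.unique _ (Presentation.Ev.gen _)
      obtain rfl := hz.unique _ (Presentation.Ev.gen _)
      exact (congrFun (congrArg Fun.toFun (ht _ _ f)) x).symm

/-- The universal functor out of the colimit. -/
noncomputable def colimDesc :
    colimCat n F ⟶ Y :=
  Presentation.lift (colimDesc_valid hY t ht)

theorem colimι_desc (j : J) :
    colimι n F j ≫ colimDesc hY t ht = t j := by
  apply hom_ext'
  intro x
  exact Presentation.lift_cell (colimDesc_valid hY t ht) (⟨j, x⟩ : ColimGen F)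

theorem colim_hom_ext {f g : colimCat n F ⟶ Y}
    (h : ∀ j, colimι n F j ≫ f = colimι n F j ≫ g) : f = g :=
  Presentation.hom_ext fun x => congrFun (congrArg Fun.toFun (h x.1)) x.2

variable (F)

/-- The colimit cocone of omega-categories. -/
noncomputable def colimCocone : Cocone F where
  pt := colimCat ⊤ F
  ι := { app := colimι ⊤ F
         naturality := fun _ _ f => (colimι_naturality ⊤ F f).trans (Category.comp_id _).symm }

/-- It is a colimit. -/
noncomputable def colimCoconeIsColimit : IsColimit (colimCocone F) where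
  desc s := colimDesc (isNCat_top s.pt) (fun j => s.ι.app j) (fun _ _ f => s.w f)
  fac s j := colimι_desc (isNCat_top s.pt) (fun j => s.ι.app j) (fun _ _ f => s.w f) j
  uniq s m hm := colim_hom_ext fun j => (hm j).trans
    (colimι_desc (isNCat_top s.pt) (fun j => s.ι.app j) (fun _ _ f => s.w f) j).symm

instance : HasColimitsOfSize.{u, u} OmCat.{u} :=
  ⟨fun _ _ => ⟨fun F => ⟨⟨⟨colimCocone F, colimCoconeIsColimit F⟩⟩⟩⟩⟩

end OmCat

namespace NCat

variable {n : ℕ∞} {J : Type u} [Category.{u} J] (F : J ⥤ NCat.{u} n)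

/-- The colimit cocone of `n`-categories. -/
noncomputable def colimCocone : Cocone F where
  pt := ⟨OmCat.colimCat n (F ⋙ NCat.incl n), OmCat.isNCat_colimCat n _⟩
  ι :=
    { app := fun j => ObjectProperty.homMk (OmCat.colimι n (F ⋙ NCat.incl n) j)
      naturality := fun _ _ f => ObjectProperty.hom_ext _
        ((OmCat.colimι_naturality n (F ⋙ NCat.incl n) f).trans (Category.comp_id _).symm) }

/-- It is a colimit. -/
noncomputable def colimCoconeIsColimit : IsColimit (colimCocone F) where
  desc s := ObjectProperty.homMk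
    (OmCat.colimDesc (F := F ⋙ NCat.incl n) s.pt.property (fun j => (s.ι.app j).hom)
      (fun _ _ f => congrArg InducedCategory.Hom.hom (s.w f)))
  fac s j := ObjectProperty.hom_ext _ (OmCat.colimι_desc (F := F ⋙ NCat.incl n) s.pt.property
    (fun j => (s.ι.app j).hom) (fun _ _ f => congrArg InducedCategory.Hom.hom (s.w f)) j)
  uniq s m hm := ObjectProperty.hom_ext _ (OmCat.colim_hom_ext fun j =>
    (congrArg InducedCategory.Hom.hom (hm j)).trans
      (OmCat.colimι_desc (F := F ⋙ NCat.incl n) s.pt.property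
        (fun j => (s.ι.app j).hom) (fun _ _ f => congrArg InducedCategory.Hom.hom (s.w f)) j).symm)

instance : HasColimitsOfSize.{u, u} (NCat.{u} n) :=
  ⟨fun _ _ => ⟨fun F => ⟨⟨⟨colimCocone F, colimCoconeIsColimit F⟩⟩⟩⟩⟩

/-- The one-object diagram at an omega-category. -/
def single (X : OmCat.{u}) : Discrete PUnit.{u + 1} ⥤ OmCat.{u} :=
  (Functor.const _).obj X

/-- Functors out of the reflection. -/
noncomputable def reflectEquiv (n : ℕ∞) (X : OmCat.{u}) (Y : NCat.{u} n) :
    ((⟨OmCat.colimCat n (single X), OmCat.isNCat_colimCat n _⟩ : NCat.{u} n) ⟶ Y) ≃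
      (X ⟶ (NCat.incl n).obj Y) where
  toFun f := OmCat.colimι n (single X) ⟨PUnit.unit⟩ ≫ f.hom
  invFun g := ObjectProperty.homMk
    (OmCat.colimDesc (F := single X) Y.property (fun _ => g) (fun _ _ _ => Category.id_comp g))
  left_inv f := ObjectProperty.hom_ext _ (OmCat.colim_hom_ext fun j => by
    rcases j with ⟨⟨⟩⟩
    exact OmCat.colimι_desc (F := single X) Y.property
      (fun _ => OmCat.colimι n (single X) ⟨PUnit.unit⟩ ≫ f.hom)
      (fun _ _ _ => Category.id_comp _) _)
  right_inv g := OmCat.colimι_desc (F := single X) Y.property (fun _ => g)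
    (fun _ _ _ => Category.id_comp _) ⟨PUnit.unit⟩

theorem reflectEquiv_comp (X : OmCat.{u}) (Y Y' : NCat.{u} n) (g : Y ⟶ Y')
    (h : (⟨OmCat.colimCat n (single X), OmCat.isNCat_colimCat n _⟩ : NCat.{u} n) ⟶ Y) :
    reflectEquiv n X Y' (h ≫ g) = reflectEquiv n X Y h ≫ (NCat.incl n).map g :=
  (Category.assoc (OmCat.colimι n (single X) ⟨PUnit.unit⟩) h.hom g.hom).symm

/-- The reflection onto `n`-categories. -/
noncomputable def reflector (n : ℕ∞) : OmCat.{u} ⥤ NCat.{u} n :=
  Adjunction.leftAdjointOfEquiv (G := NCat.incl n) (fun X Y => reflectEquiv n X Y)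
    (fun X Y Y' g h => reflectEquiv_comp X Y Y' g h)

/-- The reflection adjunction. -/
noncomputable def reflectorAdj (n : ℕ∞) : reflector.{u} n ⊣ NCat.incl n :=
  Adjunction.adjunctionOfEquivLeft (fun X Y => reflectEquiv n X Y)
    (fun X Y Y' g h => reflectEquiv_comp X Y Y' g h)

instance (n : ℕ∞) : (NCat.incl.{u} n).IsRightAdjoint :=
  (reflectorAdj n).isRightAdjoint

end NCat

end Vale.Agent.P213
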