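import Vale.Agent.P213.Spec
import Vale.Agent.P213.Cat.Colimits

/-!
The left adjoint of the Street nerve, by generators and relations.
-/

namespace Vale.Agent.P213

open CategoryTheory Opposite

universe u

namespace Realize

variable (n : ℕ∞) (K : SSet.{u})

/-- A cell of an oriental over a simplex. -/
abbrev Gen : Type u := Σ m : SimplexCategoryᵒᵖ, K.obj m × (oriental m.unop.len).carrier

/-- Each simplex is a functor, naturally. -/
inductive Rels : Tm (Gen K) → Tm (Gen K) → Prop
  | src (m : SimplexCategoryᵒᵖ) (σ : K.obj m) (i : ℕ) (x : (oriental m.unop.len).carrier) :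
      Rels (.src i (.gen ⟨m, σ, x⟩)) (.gen ⟨m, σ, (oriental m.unop.len).s i x⟩)
  | tgt (m : SimplexCategoryᵒᵖ) (σ : K.obj m) (i : ℕ) (x : (oriental m.unop.len).carrier) :
      Rels (.tgt i (.gen ⟨m, σ, x⟩)) (.gen ⟨m, σ, (oriental m.unop.len).t i x⟩)
  | comp (m : SimplexCategoryᵒᵖ) (σ : K.obj m) (i : ℕ) (x y : (oriental m.unop.len).carrier)
      (h : (oriental m.unop.len).t i x = (oriental m.unop.len).s i y) :
      Rels (.comp i (.gen ⟨m, σ, x⟩) (.gen ⟨m, σ, y⟩))
        (.gen ⟨m, σ, (oriental m.unop.len).comp i x y⟩)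
  | face {m l : SimplexCategoryᵒᵖ} (θ : m ⟶ l) (σ : K.obj m) (x : (oriental l.unop.len).carrier) :
      Rels (.gen ⟨l, K.map θ σ, x⟩)
        (.gen ⟨m, σ, (orientalMap θ.unop.toOrderHom).toFun x⟩)

open Classical in
/-- A dimension bound of a cell of an oriental, capped at `n`. -/
noncomputable def dimB {m : ℕ} (x : (oriental m).carrier) : ℕ :=
  if n = ⊤ then Nat.find ((oriental m).bounded x)
  else min (Nat.find ((oriental m).bounded x)) n.toNat

theorem dimB_le {m : ℕ} (x : (oriental m).carrier) : (dimB n x : ℕ∞) ≤ n := by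
  unfold dimB
  split
  · next h => rw [h]; exact le_top
  · next h =>
    calc ((min _ n.toNat : ℕ) : ℕ∞) ≤ (n.toNat : ℕ∞) := by exact_mod_cast min_le_right _ _
      _ = n := ENat.coe_toNat h

theorem map_dimB {n : ℕ∞} {m : ℕ} {Y : OmCat.{u}} (hY : IsNCat n Y) (f : Fun (oriental m) Y)
    (x : (oriental m).carrier) : Y.s (dimB n x) (f.toFun x) = f.toFun x := by
  classical
  have h1 : Y.s (Nat.find ((oriental m).bounded x)) (f.toFun x) = f.toFun x :=
    (f.map_s _ x).symm.trans (congrArg f.toFun (Nat.find_spec ((oriental m).bounded x)))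
  unfold dimB
  split
  · exact h1
  · next h =>
    rcases le_total (Nat.find ((oriental m).bounded x)) n.toNat with h' | h'
    · rw [min_eq_left h']; exact h1
    · rw [min_eq_right h']
      exact hY _ (by rw [ENat.coe_toNat h]) _

/-- The presentation of the realization. -/
noncomputable def pres : Presentation.{u} where
  Gen := Gen K
  dim g := dimB n g.2.2
  rel := Rels K

/-- The realization of a simplicial set as an `n`-category. -/
noncomputable def obj : NCat.{u} n :=
  ⟨(pres n K).cat, Presentation.isNCat_cat _ fun g => dimB_le n g.2.2⟩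

/-- The functor of a simplex. -/
noncomputable def simplex (m : SimplexCategoryᵒᵖ) (σ : K.obj m) :
    Fun (oriental m.unop.len) (pres n K).cat where
  toFun x := (pres n K).cell ⟨m, σ, x⟩
  map_s i x := ((Presentation.srcQ_mk i _ _).trans
    (Presentation.mk_eq (.rel (Rels.src m σ i x) (.srcCongr (.gen _)) (.gen _)))).symm
  map_t i x := ((Presentation.tgtQ_mk i _ _).trans
    (Presentation.mk_eq (.rel (Rels.tgt m σ i x) (.tgtCongr (.gen _)) (.gen _)))).symm
  map_comp i x y h := by
    have a : (pres n K).Rel (.tgt i (.gen ⟨m, σ, x⟩))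
        (.gen ⟨m, σ, (oriental m.unop.len).t i x⟩) :=
      .rel (Rels.tgt m σ i x) (.tgtCongr (.gen _)) (.gen _)
    have b : (pres n K).Rel (.src i (.gen ⟨m, σ, y⟩))
        (.gen ⟨m, σ, (oriental m.unop.len).s i y⟩) :=
      .rel (Rels.src m σ i y) (.srcCongr (.gen _)) (.gen _)
    rw [h] at a
    exact ((Presentation.compQ_cls (a.trans b.symm)).trans
      (Presentation.mk_eq (.rel (Rels.comp m σ i x y h)
        (.compCongr (.gen _) (.gen _) (a.trans b.symm)) (.gen _)))).symm

theorem simplex_map {m l : SimplexCategoryᵒᵖ} (θ : m ⟶ l) (σ : K.obj m) :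
    simplex n K l (K.map θ σ) = (orientalMap θ.unop.toOrderHom).comp (simplex n K m σ) :=
  Fun.ext fun x => Presentation.mk_eq (.rel (Rels.face θ σ x) (.gen _) (.gen _))

variable {n K}

theorem valid (X : NCat.{u} n) (f : K ⟶ (nerveN n).obj X) :
    Presentation.Valid (P := pres n K)
      (fun g => Fun.toFun (f.app g.1 g.2.1 : Fun (oriental g.1.unop.len) X.obj) g.2.2) where
  dim g := map_dimB X.property _ g.2.2
  rel {a b} h y z hy hz := by
    cases h with
    | src m σ i x =>
      obtain rfl := hy.unique _ (Presentation.Ev.src (Presentation.Ev.gen _))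
      obtain rfl := hz.unique _ (Presentation.Ev.gen _)
      exact ((f.app m σ : Fun (oriental m.unop.len) X.obj).map_s i x).symm
    | tgt m σ i x =>
      obtain rfl := hy.unique _ (Presentation.Ev.tgt (Presentation.Ev.gen _))
      obtain rfl := hz.unique _ (Presentation.Ev.gen _)
      exact ((f.app m σ : Fun (oriental m.unop.len) X.obj).map_t i x).symm
    | comp m σ i x y h =>
      obtain rfl := hy.unique _ (Presentation.Ev.comp
        ((oriental m.unop.len).map_compat (f.app m σ : Fun (oriental m.unop.len) X.obj) h)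
        (Presentation.Ev.gen _) (Presentation.Ev.gen _))
      obtain rfl := hz.unique _ (Presentation.Ev.gen _)
      exact ((f.app m σ : Fun (oriental m.unop.len) X.obj).map_comp i x y h).symm
    | @face m l θ σ x =>
      obtain rfl := hy.unique _ (Presentation.Ev.gen _)
      obtain rfl := hz.unique _ (Presentation.Ev.gen _)
      have e : (f.app l (K.map θ σ) : Fun (oriental l.unop.len) X.obj) =
          (orientalMap θ.unop.toOrderHom).comp (f.app m σ) :=
        ConcreteCategory.congr_hom (f.naturality θ) σ
      exact congrArg (fun g : Fun (oriental l.unop.len) X.obj => g.toFun x) e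

variable (n K)

/-- Functors out of the realization are maps into the nerve. -/
noncomputable def equiv (X : NCat.{u} n) : (obj n K ⟶ X) ≃ (K ⟶ (nerveN n).obj X) where
  toFun g :=
    { app := fun m => TypeCat.ofHom fun σ => (simplex n K m σ).comp g.hom
      naturality := fun m l θ => ConcreteCategory.hom_ext _ _ fun σ => by
        show (simplex n K l (K.map θ σ)).comp g.hom =
          (orientalMap θ.unop.toOrderHom).comp ((simplex n K m σ).comp g.hom)
        rw [simplex_map]
        rfl }
  invFun f := ObjectProperty.homMk (Presentation.lift (valid X f))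
  left_inv g := ObjectProperty.hom_ext _ (Presentation.hom_ext fun x =>
    Presentation.lift_cell (valid X _) x)
  right_inv f := by
    ext m σ
    exact Fun.ext fun x => Presentation.lift_cell (valid X f) (⟨m, σ, x⟩ : Gen K)

end Realize

/-- The left adjoint of the nerve. -/
noncomputable def realize (n : ℕ∞) : SSet.{u} ⥤ NCat.{u} n :=
  Adjunction.leftAdjointOfEquiv (G := nerveN n) (fun K X => Realize.equiv n K X)
    (fun K X X' g h => by ext m σ; exact Fun.ext fun x => rfl)

/-- The realization is left adjoint to the nerve. -/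
noncomputable def realizeAdj (n : ℕ∞) : realize.{u} n ⊣ nerveN n :=
  Adjunction.adjunctionOfEquivLeft (fun K X => Realize.equiv n K X)
    (fun K X X' g h => by ext m σ; exact Fun.ext fun x => rfl)

/-- The nerve has a left adjoint. -/
theorem nerveAdjoint (n : ℕ∞) : Spec.NerveAdjoint.{u} n := (realizeAdj n).isRightAdjoint

end Vale.Agent.P213
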