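import Vale.Agent.P213.Cat.FilteredColim

/-!
The Street nerve preserves filtered colimits: orientals are free on finitely many atoms.
-/

namespace Vale.Agent.P213

open CategoryTheory CategoryTheory.Limits Opposite

universe u

variable {J : Type u} [Category.{u} J] [IsFiltered J] (F : J ⥤ OmCat.{u})

namespace FColim

theorem isAtom_fixed {K : ADC} {b : K.B} {p : K.Cell} (hp : K.IsAtom b p) :
    K.nu.s (K.deg b) p = p := by
  refine ADC.Cell.ext fun k e => ?_
  show (ADC.Cell.face false (K.deg b) p).x k e = p.x k e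
  rw [ADC.Cell.face_x]
  rcases lt_trichotomy k (K.deg b) with h | h | h
  · rw [if_pos h]
  · rw [if_neg (by omega), if_pos h, hp, hp]
    subst h
    simp [ADC.atomX, ADC.atomDown]
  · rw [if_neg (by omega), if_neg (by omega), hp, ADC.atomX, if_neg (by omega)]

theorem isAtom_unique {K : ADC} {b : K.B} {p q : K.Cell} (hp : K.IsAtom b p) (hq : K.IsAtom b q) :
    p = q := ADC.Cell.ext fun k e => (hp k e).trans (hq k e).symm

theorem oriental_fixed (m : ℕ) (p : (oriental m).carrier) : (oriental m).s m p = p := by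
  refine ADC.Cell.ext fun k e => ?_
  show (ADC.Cell.face false m p).x k e = p.x k e
  rw [ADC.Cell.face_x]
  have hz : ∀ j d, m < j → p.x j d = 0 := fun j d hj => Finsupp.ext fun b => by
    by_contra hb
    have h1 : (simplexADC m).deg b = j := p.deg_eq j d b hb
    have h2 : b.1.card ≤ m + 1 := le_trans (Finset.card_le_univ _) (by simp)
    change b.1.card - 1 = j at h1
    omega
  rcases lt_trichotomy k m with h | h | h
  · rw [if_pos h]
  · rw [if_neg (by omega), if_pos h]
    have hb := p.boundary k e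
    subst h
    rw [hz (k + 1) e (by omega), ADC.bd_zero] at hb
    cases e
    · rfl
    · refine Finsupp.ext fun b => ?_
      have := congrArg (fun c : _ →₀ ℤ => c b) hb
      simp [ADC.toZ] at this
      omega
  · rw [if_neg (by omega), if_neg (by omega), hz k e h]

variable (hA : Spec.AtomCell) (hG : Spec.SimplexGood) (m : ℕ)

/-- The atom of a face of the simplex. -/
noncomputable def atom (b : (simplexADC m).B) : (oriental m).carrier :=
  (hA (simplexADC m) (hG m) b).choose

theorem atom_spec (b : (simplexADC m).B) : (simplexADC m).IsAtom b (atom hA hG m b) :=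
  (hA (simplexADC m) (hG m) b).choose_spec

theorem atom_fixed {b : (simplexADC m).B} {k : ℕ} (h : (simplexADC m).deg b = k) :
    (oriental m).s k (atom hA hG m b) = atom hA hG m b := by
  subst h
  exact isAtom_fixed (atom_spec hA hG m b)

variable {m}

include hA hG in
theorem lift_skel_zero (h0 : Spec.FreeZero.{u}) (j₀ : J) (G : Fun (oriental m) (cat F)) :
    ∃ (j : J) (H : Fun ((oriental m).skel 0) (F.obj j)),
      ∀ q, incl F j (H.toFun q) = G.toFun q.1 := by
  obtain ⟨i, -, v₀, hv₀⟩ := exists_common F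
    (fun b : {b : (simplexADC m).B // (simplexADC m).deg b = 0} =>
      G.toFun (atom hA hG m b.1)) j₀
  obtain ⟨j, f, hf⟩ := exists_eq F (fun b => (F.obj i).s 0 (v₀ b)) v₀ fun b => by
    rw [← qs_incl, hv₀]
    exact (G.map_s 0 _).symm.trans (congrArg G.toFun (atom_fixed hA hG m b.2))
  let v := fun b => Fun.toFun (F.map f) (v₀ b)
  obtain ⟨H, hH, -⟩ := h0 (simplexADC m) (hG m) (F.obj j) v fun b => by
    rw [← (F.map f).map_s, hf]
  have hw : ∀ b : {b : (simplexADC m).B // (simplexADC m).deg b = 0},
      (cat F).s 0 (G.toFun (atom hA hG m b.1)) = G.toFun (atom hA hG m b.1) := fun b =>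
      (G.map_s 0 _).symm.trans (congrArg G.toFun (atom_fixed hA hG m b.2))
  have e : H.comp (inj F j) = ((oriental m).subι _ ((oriental m).skel_closed 0)).comp G :=
    (h0 (simplexADC m) (hG m) (cat F) (fun b => G.toFun (atom hA hG m b.1)) hw).unique
      (fun b q hq => by
        show incl F j (H.toFun q) = _
        rw [hH b q hq, incl_map, hv₀])
      (fun b q hq => congrArg G.toFun (isAtom_unique hq (atom_spec hA hG m b.1)))
  exact ⟨j, H, fun q => congrArg (fun T : Fun ((oriental m).skel 0) (cat F) => T.toFun q) e⟩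

include hA hG in
theorem lift_skel (h0 : Spec.FreeZero.{u}) (h1 : Spec.FreeSucc.{u}) (j₀ : J)
    (G : Fun (oriental m) (cat F)) (k : ℕ) :
    ∃ (j : J) (H : Fun ((oriental m).skel k) (F.obj j)),
      ∀ q, incl F j (H.toFun q) = G.toFun q.1 := by
  induction k with
  | zero => exact lift_skel_zero F hA hG h0 j₀ G
  | succ k ih =>
    obtain ⟨i₀, H₀, hH₀⟩ := ih
    obtain ⟨i, g, v₀, hv₀⟩ := exists_common F
      (fun b : {b : (simplexADC m).B // (simplexADC m).deg b = k + 1} =>
        G.toFun (atom hA hG m b.1)) i₀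
    let H₁ := H₀.comp (F.map g)
    have hH₁ : ∀ q, incl F i (H₁.toFun q) = G.toFun q.1 := fun q =>
      (incl_map F g _).trans (hH₀ q)
    have hs : ∀ b, (oriental m).s k ((oriental m).s k (atom hA hG m b)) =
        (oriental m).s k (atom hA hG m b) := fun b => (oriental m).s_s_of_le _ le_rfl
    have ht : ∀ b, (oriental m).s k ((oriental m).t k (atom hA hG m b)) =
        (oriental m).t k (atom hA hG m b) := fun b => (oriental m).s_t_of_le _ le_rfl
    obtain ⟨j₁, f₁, hf₁⟩ := exists_eq F
      (fun b : {b : (simplexADC m).B // (simplexADC m).deg b = k + 1} => (F.obj i).s (k + 1) (v₀ b))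
      v₀ fun b => by
        rw [← qs_incl, hv₀]
        exact (G.map_s _ _).symm.trans (congrArg G.toFun (atom_fixed hA hG m b.2))
    obtain ⟨j₂, f₂, hf₂⟩ := exists_eq F
      (fun b : {b : (simplexADC m).B // (simplexADC m).deg b = k + 1} =>
        Fun.toFun (F.map f₁) ((F.obj i).s k (v₀ b)))
      (fun b => Fun.toFun (F.map f₁) (H₁.toFun ⟨_, hs b.1⟩)) fun b => by
        rw [incl_map, incl_map, ← qs_incl, hv₀, hH₁]
        exact (G.map_s _ _).symm
    obtain ⟨j, f₃, hf₃⟩ := exists_eq F
      (fun b : {b : (simplexADC m).B // (simplexADC m).deg b = k + 1} =>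
        Fun.toFun (F.map f₂) (Fun.toFun (F.map f₁) ((F.obj i).t k (v₀ b))))
      (fun b => Fun.toFun (F.map f₂) (Fun.toFun (F.map f₁) (H₁.toFun ⟨_, ht b.1⟩))) fun b => by
        rw [incl_map, incl_map, incl_map, incl_map, ← qt_incl, hv₀, hH₁]
        exact (G.map_t _ _).symm
    let T : Fun (F.obj i) (F.obj j) := Fun.comp (Fun.comp (F.map f₁) (F.map f₂)) (F.map f₃)
    have hT : ∀ x, incl F j (T.toFun x) = incl F i x := fun x =>
      (incl_map F f₃ _).trans ((incl_map F f₂ _).trans (incl_map F f₁ x))
    obtain ⟨H, ⟨hH, hHb⟩, -⟩ := h1 (simplexADC m) (hG m) (F.obj j) k (H₁.comp T)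
      (fun b => T.toFun (v₀ b)) fun b => by
        refine ⟨(T.map_s _ _).symm.trans (congrArg (fun z => Fun.toFun (F.map f₃)
          (Fun.toFun (F.map f₂) z)) (hf₁ b)), fun p q hp => ?_⟩
        obtain rfl := isAtom_unique hp (atom_spec hA hG m b.1)
        constructor
        · intro e
          obtain rfl : q = ⟨_, hs b.1⟩ := Subtype.ext e
          exact (T.map_s _ _).symm.trans (congrArg (Fun.toFun (F.map f₃)) (hf₂ b))
        · intro e
          obtain rfl : q = ⟨_, ht b.1⟩ := Subtype.ext e
          exact (T.map_t _ _).symm.trans (hf₃ b)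
    let G₀ := ((oriental m).subι _ ((oriental m).skel_closed k)).comp G
    have e : H.comp (inj F j) = ((oriental m).subι _ ((oriental m).skel_closed (k + 1))).comp G :=
      (h1 (simplexADC m) (hG m) (cat F) k G₀ (fun b => G.toFun (atom hA hG m b.1)) fun b => by
        refine ⟨(G.map_s _ _).symm.trans (congrArg G.toFun (atom_fixed hA hG m b.2)),
          fun p q hp => ?_⟩
        obtain rfl := isAtom_unique hp (atom_spec hA hG m b.1)
        exact ⟨fun e => (G.map_s _ _).symm.trans (congrArg G.toFun e.symm),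
          fun e => (G.map_t _ _).symm.trans (congrArg G.toFun e.symm)⟩).unique
      ⟨fun q q' hq => by
          show incl F j (H.toFun q') = G.toFun q.1
          rw [hH q q' hq]
          exact (hT _).trans (hH₁ q),
        fun b q hq => by
          show incl F j (H.toFun q) = _
          rw [hHb b q hq, hT, hv₀]⟩
      ⟨fun q q' hq => congrArg G.toFun hq,
        fun b q hq => congrArg G.toFun (isAtom_unique hq (atom_spec hA hG m b.1))⟩
    exact ⟨j, H, fun q => congrArg (fun T : Fun ((oriental m).skel (k + 1)) (cat F) => T.toFun q) e⟩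

include hA hG in
theorem lift_oriental (h0 : Spec.FreeZero.{u}) (h1 : Spec.FreeSucc.{u}) (j₀ : J)
    (G : Fun (oriental m) (cat F)) :
    ∃ (j : J) (H : Fun (oriental m) (F.obj j)), H.comp (inj F j) = G := by
  obtain ⟨j, H, hH⟩ := lift_skel F hA hG h0 h1 j₀ G m
  exact ⟨j, ((oriental m).toSub (Fun.id _) _ ((oriental m).skel_closed m)
    (oriental_fixed m)).comp H, Fun.ext fun p => hH ⟨p, oriental_fixed m p⟩⟩

include hA hG in
theorem eq_of_incl_eq (hE : Spec.FreeExt.{u}) {j : J} (G G' : Fun (oriental m) (F.obj j))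
    (h : G.comp (inj F j) = G'.comp (inj F j)) :
    ∃ (k : J) (f : j ⟶ k), G.comp (F.map f) = G'.comp (F.map f) := by
  obtain ⟨k, f, hf⟩ := exists_eq F (fun b => G.toFun (atom hA hG m b))
    (fun b => G'.toFun (atom hA hG m b))
    fun b => congrArg (fun T : Fun (oriental m) (cat F) => T.toFun (atom hA hG m b)) h
  refine ⟨k, f, hE (simplexADC m) (hG m) _ _ _ fun b p hp => ?_⟩
  obtain rfl := isAtom_unique hp (atom_spec hA hG m b)
  exact hf b

end FColim

/-- The nerve preserves filtered colimits, given freeness of orientals. -/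
theorem nerveFiltered_of (hG : Spec.SimplexGood) (hA : Spec.AtomCell) (h0 : Spec.FreeZero.{u})
    (h1 : Spec.FreeSucc.{u}) (hE : Spec.FreeExt.{u}) (n : ℕ∞) : Spec.NerveFiltered.{u} n := by
  intro J _ _
  refine ⟨fun {G} => preservesColimit_of_preserves_colimit_cocone
    (NCat.filteredCoconeIsColimit G) (evaluationJointlyReflectsColimits _ fun m => ?_)⟩
  refine Types.FilteredColimit.isColimitOf' _ _ ?_ ?_
  · intro σ
    obtain ⟨j, H, hH⟩ := FColim.lift_oriental (G ⋙ NCat.incl n) hA hG h0 h1
      (IsFiltered.nonempty.some) (σ : Fun (oriental m.unop.len) _)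
    exact ⟨j, H, hH.symm⟩
  · intro j σ τ h
    exact FColim.eq_of_incl_eq (G ⋙ NCat.incl n) hA hG hE
      (σ : Fun (oriental m.unop.len) _) τ h

end Vale.Agent.P213
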