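import Vale.Agent.P213.Spec
import Vale.Agent.P213.Cat.Basic

/-!
Filtered colimits of omega-categories are computed on underlying sets.
-/

namespace Vale.Agent.P213

open CategoryTheory CategoryTheory.Limits

universe u

variable {J : Type u} [Category.{u} J] [IsFiltered J] (F : J ⥤ OmCat.{u})

namespace FColim

/-- Cells with the stage they live in. -/
abbrev Stage : Type u := Σ j, (F.obj j).carrier

/-- Equality at a later stage. -/
def Eventually (x y : Stage F) : Prop :=
  ∃ (k : J) (f : x.1 ⟶ k) (g : y.1 ⟶ k), Fun.toFun (F.map f) x.2 = Fun.toFun (F.map g) y.2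

theorem map_map {i j k : J} (f : i ⟶ j) (g : j ⟶ k) (x : (F.obj i).carrier) :
    Fun.toFun (F.map g) (Fun.toFun (F.map f) x) = Fun.toFun (F.map (f ≫ g)) x := by
  rw [F.map_comp]; rfl

theorem map_one (i : J) (x : (F.obj i).carrier) : Fun.toFun (F.map (𝟙 i)) x = x := by
  rw [F.map_id]; rfl

theorem eventually_trans {x y z : Stage F} (h : Eventually F x y) (h' : Eventually F y z) :
    Eventually F x z := by
  obtain ⟨k, f, g, e⟩ := h
  obtain ⟨l, g', f', e'⟩ := h'
  obtain ⟨m, a, b, hab⟩ := IsFiltered.span g g'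
  refine ⟨m, f ≫ a, f' ≫ b, ?_⟩
  rw [← map_map, e, map_map, hab, ← map_map, e', map_map]

instance setoid : Setoid (Stage F) where
  r := Eventually F
  iseqv := ⟨fun x => ⟨x.1, 𝟙 _, 𝟙 _, rfl⟩,
    fun ⟨k, f, g, e⟩ => ⟨k, g, f, e.symm⟩, fun h h' => eventually_trans F h h'⟩

/-- Cells of the colimit. -/
abbrev Q : Type u := Quotient (setoid F)

/-- The class of a cell at a stage. -/
def incl (j : J) (x : (F.obj j).carrier) : Q F := Quotient.mk (setoid F) ⟨j, x⟩

theorem incl_map {i j : J} (f : i ⟶ j) (x : (F.obj i).carrier) :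
    incl F j (Fun.toFun (F.map f) x) = incl F i x :=
  Quotient.sound ⟨j, 𝟙 j, f, map_one F j _⟩

theorem incl_surj (q : Q F) : ∃ j x, incl F j x = q :=
  Quotient.inductionOn q fun a => ⟨a.1, a.2, rfl⟩

/-- Two classes have representatives at a common stage. -/
theorem incl_surj₂ (p q : Q F) : ∃ j x y, incl F j x = p ∧ incl F j y = q := by
  obtain ⟨i, x, rfl⟩ := incl_surj F p
  obtain ⟨j, y, rfl⟩ := incl_surj F q
  exact ⟨IsFiltered.max i j, _, _, incl_map F (IsFiltered.leftToMax i j) x,
    incl_map F (IsFiltered.rightToMax i j) y⟩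

theorem incl_eq_iff {j : J} {x y : (F.obj j).carrier} :
    incl F j x = incl F j y ↔ ∃ (k : J) (f : j ⟶ k), Fun.toFun (F.map f) x = Fun.toFun (F.map f) y := by
  constructor
  · intro h
    obtain ⟨k, f, g, e⟩ := (Quotient.exact h : Eventually F ⟨j, x⟩ ⟨j, y⟩)
    refine ⟨IsFiltered.coeq f g, f ≫ IsFiltered.coeqHom f g, ?_⟩
    conv_rhs => rw [IsFiltered.coeq_condition]
    rw [← map_map F f, e, map_map]
  · rintro ⟨k, f, e⟩
    rw [← incl_map F f, e, incl_map]

/-- Finitely many classes have representatives at a common stage. -/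
theorem exists_common {ι : Type*} [Finite ι] (q : ι → Q F) (j : J) :
    ∃ (k : J) (_ : j ⟶ k) (v : ι → (F.obj k).carrier), ∀ b, incl F k (v b) = q b := by
  classical
  choose j' x hx using fun b => incl_surj F (q b)
  have : Fintype ι := Fintype.ofFinite ι
  obtain ⟨k, hk⟩ := IsFiltered.sup_objs_exists (insert j (Finset.univ.image j'))
  exact ⟨k, (hk (X := j) (by simp)).some, fun b => Fun.toFun (F.map ((hk (X := j' b)
    (by simp)).some)) (x b), fun b => (incl_map F _ _).trans (hx b)⟩

/-- Finitely many equations of classes hold at one later stage. -/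
theorem exists_eq {ι : Type*} [Finite ι] {j : J} (x y : ι → (F.obj j).carrier)
    (h : ∀ b, incl F j (x b) = incl F j (y b)) :
    ∃ (k : J) (f : j ⟶ k), ∀ b, Fun.toFun (F.map f) (x b) = Fun.toFun (F.map f) (y b) := by
  classical
  have : Fintype ι := Fintype.ofFinite ι
  suffices ∀ s : Finset ι, ∃ (k : J) (f : j ⟶ k),
      ∀ b ∈ s, Fun.toFun (F.map f) (x b) = Fun.toFun (F.map f) (y b) by
    obtain ⟨k, f, hf⟩ := this Finset.univ
    exact ⟨k, f, fun b => hf b (Finset.mem_univ b)⟩
  intro s
  induction s using Finset.induction_on with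
  | empty => exact ⟨j, 𝟙 j, fun b hb => absurd hb (Finset.notMem_empty b)⟩
  | insert a s _ ih =>
    obtain ⟨k, f, hf⟩ := ih
    have : incl F k (Fun.toFun (F.map f) (x a)) = incl F k (Fun.toFun (F.map f) (y a)) := by
      rw [incl_map, incl_map, h a]
    obtain ⟨l, g, hg⟩ := (incl_eq_iff F).1 this
    refine ⟨l, f ≫ g, fun b hb => ?_⟩
    rw [← map_map, ← map_map]
    rcases Finset.mem_insert.1 hb with rfl | hb
    · exact hg
    · rw [hf b hb]

/-- Source on classes. -/
def qs (i : ℕ) : Q F → Q F :=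
  Quotient.lift (fun x : Stage F => incl F x.1 ((F.obj x.1).s i x.2)) fun x y ⟨k, f, g, e⟩ => by
    rw [← incl_map F f, (F.map f).map_s, e, ← (F.map g).map_s, incl_map]

/-- Target on classes. -/
def qt (i : ℕ) : Q F → Q F :=
  Quotient.lift (fun x : Stage F => incl F x.1 ((F.obj x.1).t i x.2)) fun x y ⟨k, f, g, e⟩ => by
    rw [← incl_map F f, (F.map f).map_t, e, ← (F.map g).map_t, incl_map]

theorem qs_incl (i : ℕ) (j : J) (x : (F.obj j).carrier) :
    qs F i (incl F j x) = incl F j ((F.obj j).s i x) := rfl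

theorem qt_incl (i : ℕ) (j : J) (x : (F.obj j).carrier) :
    qt F i (incl F j x) = incl F j ((F.obj j).t i x) := rfl

/-- Composable classes have composable representatives. -/
theorem composable_rep {i : ℕ} {p q : Q F} (h : qt F i p = qs F i q) :
    ∃ j x y, (F.obj j).t i x = (F.obj j).s i y ∧ incl F j x = p ∧ incl F j y = q := by
  obtain ⟨j, x, y, rfl, rfl⟩ := incl_surj₂ F p q
  obtain ⟨k, f, e⟩ := (incl_eq_iff F).1 h
  exact ⟨k, Fun.toFun (F.map f) x, Fun.toFun (F.map f) y,
    by rw [← (F.map f).map_t, ← (F.map f).map_s, e], incl_map F f x, incl_map F f y⟩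

open Classical in
/-- Composition of classes; the first if they are not composable. -/
noncomputable def qc (i : ℕ) (p q : Q F) : Q F :=
  if h : qt F i p = qs F i q then
    incl F (composable_rep F h).choose
      ((F.obj _).comp i (composable_rep F h).choose_spec.choose
        (composable_rep F h).choose_spec.choose_spec.choose)
  else p

theorem comp_wd {i : ℕ} {j j' : J} {x y : (F.obj j).carrier} {x' y' : (F.obj j').carrier}
    (h : (F.obj j).t i x = (F.obj j).s i y) (h' : (F.obj j').t i x' = (F.obj j').s i y')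
    (hx : incl F j x = incl F j' x') (hy : incl F j y = incl F j' y') :
    incl F j ((F.obj j).comp i x y) = incl F j' ((F.obj j').comp i x' y') := by
  obtain ⟨k, a, b, e⟩ := (Quotient.exact hx : Eventually F ⟨j, x⟩ ⟨j', x'⟩)
  obtain ⟨l, a', b', e'⟩ := (Quotient.exact hy : Eventually F ⟨j, y⟩ ⟨j', y'⟩)
  dsimp only at a b e a' b' e'
  obtain ⟨m, α, β, ha, hb⟩ := IsFiltered.bowtie a a' b b'
  rw [← incl_map F (a ≫ α), ← incl_map F (b ≫ α) ((F.obj j').comp i x' y'),
    (F.map (a ≫ α)).map_comp _ _ _ h, (F.map (b ≫ α)).map_comp _ _ _ h']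
  congr 2
  · rw [← map_map, e, map_map]
  · rw [ha, hb, ← map_map, e', map_map]

theorem qc_incl {i : ℕ} {j : J} {x y : (F.obj j).carrier}
    (h : (F.obj j).t i x = (F.obj j).s i y) :
    qc F i (incl F j x) (incl F j y) = incl F j ((F.obj j).comp i x y) := by
  have h' : qt F i (incl F j x) = qs F i (incl F j y) := by rw [qt_incl, qs_incl, h]
  rw [qc, dif_pos h']
  have := (composable_rep F h').choose_spec.choose_spec.choose_spec
  exact comp_wd F this.1 h this.2.1 this.2.2

/-- The colimit omega-category. -/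
noncomputable def cat : OmCat.{u} where
  carrier := Q F
  s := qs F
  t := qt F
  comp := qc F
  ss i k q := by
    obtain ⟨j, x, rfl⟩ := incl_surj F q
    exact congrArg (incl F j) ((F.obj j).ss i k x)
  st i k q := by
    obtain ⟨j, x, rfl⟩ := incl_surj F q
    split_ifs with h
    · exact congrArg (incl F j) ((F.obj j).s_t_of_lt x h)
    · exact congrArg (incl F j) ((F.obj j).s_t_of_le x (not_lt.1 h))
  ts i k q := by
    obtain ⟨j, x, rfl⟩ := incl_surj F q
    split_ifs with h
    · exact congrArg (incl F j) ((F.obj j).t_s_of_lt x h)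
    · exact congrArg (incl F j) ((F.obj j).t_s_of_le x (not_lt.1 h))
  tt i k q := by
    obtain ⟨j, x, rfl⟩ := incl_surj F q
    exact congrArg (incl F j) ((F.obj j).tt i k x)
  s_comp i n p q h := by
    obtain ⟨j, x, y, e, rfl, rfl⟩ := composable_rep F h
    rw [qc_incl F e, qs_incl]
    split_ifs with hi
    · exact congrArg (incl F j) ((F.obj j).s_comp_of_le x y e hi)
    · rw [qs_incl, qs_incl, qc_incl F ((F.obj j).compat_s e (not_le.1 hi))]
      exact congrArg (incl F j) ((F.obj j).s_comp_of_lt x y e (not_le.1 hi))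
  t_comp i n p q h := by
    obtain ⟨j, x, y, e, rfl, rfl⟩ := composable_rep F h
    rw [qc_incl F e, qt_incl]
    split_ifs with hi
    · exact congrArg (incl F j) ((F.obj j).t_comp_of_le x y e hi)
    · rw [qt_incl, qt_incl, qc_incl F ((F.obj j).compat_t e (not_le.1 hi))]
      exact congrArg (incl F j) ((F.obj j).t_comp_of_lt x y e (not_le.1 hi))
  id_comp i q := by
    obtain ⟨j, x, rfl⟩ := incl_surj F q
    rw [qs_incl, qc_incl F ((F.obj j).t_s_of_le x le_rfl), (F.obj j).id_comp]
  comp_id i q := by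
    obtain ⟨j, x, rfl⟩ := incl_surj F q
    rw [qt_incl, qc_incl F ((F.obj j).s_t_of_le x le_rfl).symm, (F.obj j).comp_id]
  assoc i p q r h h' := by
    obtain ⟨j₀, x₀, y₀, e₀, rfl, rfl⟩ := composable_rep F h
    obtain ⟨l, z₀, rfl⟩ := incl_surj F r
    obtain ⟨k, f, g, e'⟩ := (Quotient.exact h' :
      Eventually F ⟨j₀, (F.obj j₀).t i y₀⟩ ⟨l, (F.obj l).s i z₀⟩)
    dsimp only at f g e'
    rw [(F.map f).map_t, (F.map g).map_s] at e'
    rw [← incl_map F f x₀, ← incl_map F f y₀, ← incl_map F g z₀]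
    have a := (F.obj j₀).map_compat (F.map f) e₀
    rw [qc_incl F a, qc_incl F e', qc_incl F (((F.obj k).t_comp_of_le _ _ a le_rfl).trans e'),
      qc_incl F (a.trans ((F.obj k).s_comp_of_le _ _ e' le_rfl).symm),
      (F.obj k).assoc i _ _ _ a e']
  interchange m n p p' q q' hmn h₁ h₂ h₃ := by
    obtain ⟨j₀, x₀, x₀', e₀, rfl, rfl⟩ := composable_rep F h₁
    obtain ⟨l₀, y₀, y₀', d₀, rfl, rfl⟩ := composable_rep F h₂
    obtain ⟨k, f, g, e'⟩ := (Quotient.exact h₃ :
      Eventually F ⟨j₀, (F.obj j₀).t m x₀⟩ ⟨l₀, (F.obj l₀).s m y₀⟩)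
    dsimp only at f g e'
    rw [(F.map f).map_t, (F.map g).map_s] at e'
    rw [← incl_map F f x₀, ← incl_map F f x₀', ← incl_map F g y₀, ← incl_map F g y₀']
    have a := (F.obj j₀).map_compat (F.map f) e₀
    have b := (F.obj l₀).map_compat (F.map g) d₀
    have u1 := congrArg ((F.obj k).t m) a
    rw [(F.obj k).t_t_of_lt _ hmn, (F.obj k).t_s_of_lt _ hmn] at u1
    have u2 := congrArg ((F.obj k).s m) b
    rw [(F.obj k).s_t_of_lt _ hmn, (F.obj k).s_s_of_lt _ hmn] at u2
    have d := u1.symm.trans (e'.trans u2)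
    rw [qc_incl F a, qc_incl F b, qc_incl F e', qc_incl F d,
      qc_incl F (((F.obj k).t_comp_of_le _ _ a hmn.le).trans
        ((u1.symm.trans e').trans ((F.obj k).s_comp_of_le _ _ b hmn.le).symm)),
      qc_incl F (((F.obj k).t_comp_of_lt _ _ e' hmn).trans
        ((congrArg₂ ((F.obj k).comp m) a b).trans ((F.obj k).s_comp_of_lt _ _ d hmn).symm)),
      (F.obj k).interchange m n _ _ _ _ hmn a b e']
  bounded q := by
    obtain ⟨j, x, rfl⟩ := incl_surj F q
    exact ((F.obj j).bounded x).imp fun k hk => congrArg (incl F j) hk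

/-- The injections. -/
noncomputable def inj (j : J) : F.obj j ⟶ cat F where
  toFun := incl F j
  map_s _ _ := rfl
  map_t _ _ := rfl
  map_comp _ _ _ h := (qc_incl F h).symm

theorem isNCat_cat {n : ℕ∞} (h : ∀ j, IsNCat n (F.obj j)) : IsNCat n (cat F) := by
  intro k hk q
  obtain ⟨j, x, rfl⟩ := incl_surj F q
  exact congrArg (incl F j) (h j k hk x)

/-- The colimit cocone. -/
noncomputable def cocone : Cocone F where
  pt := cat F
  ι := { app := inj F
         naturality := fun _ _ f => hom_ext' fun x => incl_map F f x }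

/-- The functor out of the colimit. -/
noncomputable def desc (s : Cocone F) : cat F ⟶ s.pt where
  toFun := Quotient.lift (fun x : Stage F => Fun.toFun (s.ι.app x.1) x.2) fun x y ⟨k, f, g, e⟩ => by
    have hf := congrFun (congrArg Fun.toFun (s.w f)) x.2
    have hg := congrFun (congrArg Fun.toFun (s.w g)) y.2
    exact hf.symm.trans ((congrArg (Fun.toFun (s.ι.app k)) e).trans hg)
  map_s i q := by
    obtain ⟨j, x, rfl⟩ := incl_surj F q
    exact (s.ι.app j).map_s i x
  map_t i q := by
    obtain ⟨j, x, rfl⟩ := incl_surj F q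
    exact (s.ι.app j).map_t i x
  map_comp i p q h := by
    obtain ⟨j, x, y, e, rfl, rfl⟩ := composable_rep F h
    exact (congrArg _ (qc_incl F e)).trans ((s.ι.app j).map_comp i x y e)

/-- The cocone is a colimit. -/
noncomputable def isColimit : IsColimit (cocone F) where
  desc := desc F
  fac s j := hom_ext' fun _ => rfl
  uniq s m hm := hom_ext' fun q => by
    obtain ⟨j, x, rfl⟩ := incl_surj F q
    exact congrFun (congrArg Fun.toFun (hm j)) x

end FColim

namespace NCat

variable {n : ℕ∞} (G : J ⥤ NCat.{u} n)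

/-- The filtered colimit cocone of `n`-categories. -/
noncomputable def filteredCocone : Cocone G where
  pt := ⟨FColim.cat (G ⋙ NCat.incl n), FColim.isNCat_cat _ fun j => (G.obj j).property⟩
  ι := { app := fun j => ObjectProperty.homMk (FColim.inj (G ⋙ NCat.incl n) j)
         naturality := fun _ _ f => ObjectProperty.hom_ext _
           (hom_ext' fun x => FColim.incl_map (G ⋙ NCat.incl n) f x) }

/-- It is a colimit. -/
noncomputable def filteredCoconeIsColimit : IsColimit (filteredCocone G) where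
  desc s := ObjectProperty.homMk (FColim.desc (G ⋙ NCat.incl n) ((NCat.incl n).mapCocone s))
  fac s j := ObjectProperty.hom_ext _ (hom_ext' fun _ => rfl)
  uniq s m hm := ObjectProperty.hom_ext _ (hom_ext' fun q => by
    obtain ⟨j, x, rfl⟩ := FColim.incl_surj (G ⋙ NCat.incl n) q
    exact congrFun (congrArg Fun.toFun (congrArg InducedCategory.Hom.hom (hm j))) x)

end NCat

end Vale.Agent.P213
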