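import Vale.Agent.P213.Spec
import Vale.Agent.P213.Cat.Colimits

/-!
Limits of omega-categories and of `n`-categories: families of cells of bounded dimension.
-/

namespace Vale.Agent.P213

open CategoryTheory CategoryTheory.Limits

universe u

namespace OmCat

variable {I : Type u} (C : I → OmCat.{u})

/-- A family of cells of bounded dimension. -/
abbrev BCell : Type u := {x : ∀ j, (C j).carrier // ∃ k, ∀ j, (C j).s k (x j) = x j}

variable {C}

theorem BCell.ext {x y : BCell C} (h : ∀ j, x.1 j = y.1 j) : x = y := Subtype.ext (funext h)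

/-- Pointwise source. -/
def BCell.src (i : ℕ) (x : BCell C) : BCell C :=
  ⟨fun j => (C j).s i (x.1 j), i, fun j => (C j).s_s_of_le (x.1 j) le_rfl⟩

/-- Pointwise target. -/
def BCell.tgt (i : ℕ) (x : BCell C) : BCell C :=
  ⟨fun j => (C j).t i (x.1 j), i, fun j => (C j).s_t_of_le (x.1 j) le_rfl⟩

open Classical in
/-- Pointwise composition; the first family if they are not composable. -/
noncomputable def BCell.cmp (i : ℕ) (x y : BCell C) : BCell C :=
  if h : ∀ j, (C j).t i (x.1 j) = (C j).s i (y.1 j) then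
    ⟨fun j => (C j).comp i (x.1 j) (y.1 j), by
      obtain ⟨k, hk⟩ := x.2
      obtain ⟨l, hl⟩ := y.2
      exact ⟨k + l, fun j => (C j).s_eq_self_comp (h j)
        ((C j).s_eq_self_mono (hk j) (by omega)) ((C j).s_eq_self_mono (hl j) (by omega))⟩⟩
  else x

theorem BCell.cmp_apply {i : ℕ} {x y : BCell C}
    (h : ∀ j, (C j).t i (x.1 j) = (C j).s i (y.1 j)) (j : I) :
    (BCell.cmp i x y).1 j = (C j).comp i (x.1 j) (y.1 j) := by
  rw [BCell.cmp, dif_pos h]

theorem BCell.compat {i : ℕ} {x y : BCell C} (h : BCell.tgt i x = BCell.src i y) (j : I) :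
    (C j).t i (x.1 j) = (C j).s i (y.1 j) :=
  congrFun (congrArg Subtype.val h) j

variable (C)

/-- The product omega-category. -/
noncomputable def prod : OmCat.{u} where
  carrier := BCell C
  s := BCell.src
  t := BCell.tgt
  comp := BCell.cmp
  ss i k x := BCell.ext fun j => (C j).ss i k (x.1 j)
  st i k x := by
    split_ifs with h
    · exact BCell.ext fun j => (C j).s_t_of_lt (x.1 j) h
    · exact BCell.ext fun j => (C j).s_t_of_le (x.1 j) (not_lt.1 h)
  ts i k x := by
    split_ifs with h
    · exact BCell.ext fun j => (C j).t_s_of_lt (x.1 j) h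
    · exact BCell.ext fun j => (C j).t_s_of_le (x.1 j) (not_lt.1 h)
  tt i k x := BCell.ext fun j => (C j).tt i k (x.1 j)
  s_comp i n x y h := by
    have hj := BCell.compat h
    split_ifs with hi
    · exact BCell.ext fun j => (congrArg ((C j).s i) (BCell.cmp_apply hj j)).trans
        ((C j).s_comp_of_le _ _ (hj j) hi)
    · exact BCell.ext fun j => (congrArg ((C j).s i) (BCell.cmp_apply hj j)).trans
        (((C j).s_comp_of_lt _ _ (hj j) (not_le.1 hi)).trans
          (BCell.cmp_apply (x := BCell.src i x) (y := BCell.src i y)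
            (fun j => (C j).compat_s (hj j) (not_le.1 hi)) j).symm)
  t_comp i n x y h := by
    have hj := BCell.compat h
    split_ifs with hi
    · exact BCell.ext fun j => (congrArg ((C j).t i) (BCell.cmp_apply hj j)).trans
        ((C j).t_comp_of_le _ _ (hj j) hi)
    · exact BCell.ext fun j => (congrArg ((C j).t i) (BCell.cmp_apply hj j)).trans
        (((C j).t_comp_of_lt _ _ (hj j) (not_le.1 hi)).trans
          (BCell.cmp_apply (x := BCell.tgt i x) (y := BCell.tgt i y)
            (fun j => (C j).compat_t (hj j) (not_le.1 hi)) j).symm)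
  id_comp i x := BCell.ext fun j =>
    (BCell.cmp_apply (x := BCell.src i x) (fun j => (C j).t_s_of_le (x.1 j) le_rfl) j).trans
      ((C j).id_comp i (x.1 j))
  comp_id i x := BCell.ext fun j =>
    (BCell.cmp_apply (y := BCell.tgt i x) (fun j => ((C j).s_t_of_le (x.1 j) le_rfl).symm) j).trans
      ((C j).comp_id i (x.1 j))
  assoc i x y z h h' := by
    have a := BCell.compat h
    have b := BCell.compat h'
    refine BCell.ext fun j => ?_
    have c : ∀ j, (C j).t i ((BCell.cmp i x y).1 j) = (C j).s i (z.1 j) := fun j => by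
      rw [BCell.cmp_apply a, (C j).t_comp_of_le _ _ (a j) le_rfl, b j]
    have d : ∀ j, (C j).t i (x.1 j) = (C j).s i ((BCell.cmp i y z).1 j) := fun j => by
      rw [BCell.cmp_apply b, (C j).s_comp_of_le _ _ (b j) le_rfl, a j]
    rw [BCell.cmp_apply c, BCell.cmp_apply d, BCell.cmp_apply a, BCell.cmp_apply b]
    exact (C j).assoc i _ _ _ (a j) (b j)
  interchange m n x x' y y' hmn h₁ h₂ h₃ := by
    have a := BCell.compat h₁
    have b := BCell.compat h₂
    have c := BCell.compat h₃
    have e : ∀ j, (C j).t m (x'.1 j) = (C j).t m (x.1 j) := fun j => by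
      rw [← (C j).t_s_of_lt (x'.1 j) hmn, ← a j, (C j).t_t_of_lt _ hmn]
    have d : ∀ j, (C j).t m (x'.1 j) = (C j).s m (y'.1 j) := fun j => by
      rw [e j, c j, ← (C j).s_t_of_lt (y.1 j) hmn, b j, (C j).s_s_of_lt _ hmn]
    refine BCell.ext fun j => ?_
    have p : ∀ j, (C j).t m ((BCell.cmp n x x').1 j) = (C j).s m ((BCell.cmp n y y').1 j) :=
      fun j => by
        rw [BCell.cmp_apply a, BCell.cmp_apply b, (C j).t_comp_of_le _ _ (a j) hmn.le,
          (C j).s_comp_of_le _ _ (b j) hmn.le, e j, c j]
    have q : ∀ j, (C j).t n ((BCell.cmp m x y).1 j) = (C j).s n ((BCell.cmp m x' y').1 j) :=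
      fun j => by
        rw [BCell.cmp_apply c, BCell.cmp_apply d, (C j).t_comp_of_lt _ _ (c j) hmn,
          (C j).s_comp_of_lt _ _ (d j) hmn, a j, b j]
    rw [BCell.cmp_apply p, BCell.cmp_apply q, BCell.cmp_apply a, BCell.cmp_apply b,
      BCell.cmp_apply c, BCell.cmp_apply d]
    exact (C j).interchange m n _ _ _ _ hmn (a j) (b j) (c j)
  bounded x := x.2.imp fun _ hk => BCell.ext hk

/-- The projections. -/
noncomputable def proj (j : I) : prod C ⟶ C j where
  toFun x := x.1 j
  map_s _ _ := rfl
  map_t _ _ := rfl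
  map_comp _ _ _ h := BCell.cmp_apply (BCell.compat h) j

variable {C}

/-- The pairing of a family of functors. -/
noncomputable def pair {Y : OmCat.{u}} (f : ∀ j, Y ⟶ C j) : Y ⟶ prod C where
  toFun y := ⟨fun j => Fun.toFun (f j) y, (Y.bounded y).imp fun k hk j =>
    ((f j).map_s k y).symm.trans (congrArg (f j).toFun hk)⟩
  map_s i y := BCell.ext fun j => (f j).map_s i y
  map_t i y := BCell.ext fun j => (f j).map_t i y
  map_comp i x y h := BCell.ext fun j => ((f j).map_comp i x y h).trans
    (BCell.cmp_apply (x := ⟨fun j => Fun.toFun (f j) x, _⟩) (y := ⟨fun j => Fun.toFun (f j) y, _⟩)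
      (fun j => Y.map_compat (f j) h) j).symm

theorem isNCat_prod {n : ℕ∞} (h : ∀ j, IsNCat n (C j)) : IsNCat n (prod C) :=
  fun k hk x => BCell.ext fun j => h j k hk (x.1 j)

variable {J : Type u} [Category.{u} J] (F : J ⥤ OmCat.{u})

theorem closed_compatible : (prod fun j => F.obj j).Closed
    (fun x => ∀ ⦃i j : J⦄ (f : i ⟶ j), Fun.toFun (F.map f) (x.1 i) = x.1 j) where
  s k x hx i j f := by
    show Fun.toFun (F.map f) ((F.obj i).s k (x.1 i)) = (F.obj j).s k (x.1 j)
    rw [(F.map f).map_s, hx f]
  t k x hx i j f := by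
    show Fun.toFun (F.map f) ((F.obj i).t k (x.1 i)) = (F.obj j).t k (x.1 j)
    rw [(F.map f).map_t, hx f]
  comp k x y hx hy h i j f := by
    have h' := BCell.compat h
    show Fun.toFun (F.map f) ((BCell.cmp k x y).1 i) = (BCell.cmp k x y).1 j
    rw [BCell.cmp_apply h', BCell.cmp_apply h', (F.map f).map_comp k _ _ (h' i), hx f, hy f]

/-- The vertex of the limit. -/
noncomputable abbrev limCat : OmCat.{u} := (prod fun j => F.obj j).sub _ (closed_compatible F)

/-- The limit projections. -/
noncomputable def limπ (j : J) : limCat F ⟶ F.obj j :=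
  (prod fun j => F.obj j).subι _ (closed_compatible F) ≫ proj (fun j => F.obj j) j

/-- The limit cone. -/
noncomputable def limCone : Cone F where
  pt := limCat F
  π := { app := limπ F
         naturality := fun i j f => hom_ext' fun x => (x.2 f).symm }

/-- The functor into the limit. -/
noncomputable def limLift (s : Cone F) : s.pt ⟶ limCat F :=
  OmCat.toSub (prod fun j => F.obj j) (pair fun j => s.π.app j) _ (closed_compatible F)
    fun y _ _ f => congrFun (congrArg Fun.toFun (s.w f)) y

/-- It is a limit. -/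
noncomputable def limConeIsLimit : IsLimit (limCone F) where
  lift := limLift F
  fac s j := hom_ext' fun _ => rfl
  uniq s m hm := hom_ext' fun y => Subtype.ext (BCell.ext fun j =>
    congrFun (congrArg Fun.toFun (hm j)) y)

end OmCat

namespace NCat

variable {n : ℕ∞} {J : Type u} [Category.{u} J] (F : J ⥤ NCat.{u} n)

/-- The limit cone of `n`-categories. -/
noncomputable def limCone : Cone F where
  pt := ⟨OmCat.limCat (F ⋙ NCat.incl n),
    isNCat_sub (OmCat.isNCat_prod fun j => (F.obj j).property) _ _⟩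
  π := { app := fun j => ObjectProperty.homMk (OmCat.limπ (F ⋙ NCat.incl n) j)
         naturality := fun i j f => ObjectProperty.hom_ext _
           (hom_ext' fun x => (x.2 f).symm) }

/-- It is a limit. -/
noncomputable def limConeIsLimit : IsLimit (limCone F) where
  lift s := ObjectProperty.homMk (OmCat.limLift (F ⋙ NCat.incl n) ((NCat.incl n).mapCone s))
  fac s j := ObjectProperty.hom_ext _ (hom_ext' fun _ => rfl)
  uniq s m hm := ObjectProperty.hom_ext _ (hom_ext' fun y => Subtype.ext (OmCat.BCell.ext fun j =>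
    congrFun (congrArg Fun.toFun (congrArg InducedCategory.Hom.hom (hm j))) y))

end NCat

instance (n : ℕ∞) : HasLimitsOfSize.{u, u} (NCat.{u} n) :=
  ⟨fun _ _ => ⟨fun F => ⟨⟨⟨NCat.limCone F, NCat.limConeIsLimit F⟩⟩⟩⟩⟩

/-- `n`-categories have all small limits and colimits. -/
theorem bicomplete (n : ℕ∞) : Spec.Bicomplete.{u} n := ⟨inferInstance, inferInstance⟩

end Vale.Agent.P213
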