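import Vale.Agent.P213.Cat.Filtered
import Vale.Agent.P213.Steiner.Atom
import Vale.Agent.P213.Steiner.Simplex
import Vale.Agent.P213.Steiner.Free

/-!
The Street nerve of strict `n`-categories preserves filtered colimits.
-/

namespace Vale.Agent.P213

universe u

/-- The nerve preserves filtered colimits. -/
theorem nerveFiltered (n : ℕ∞) : Spec.NerveFiltered.{u} n :=
  nerveFiltered_of simplexGood atomCell freeZero freeSucc freeExt n

end Vale.Agent.P213
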