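import Vale.Agent.P213.Cat.Basic

/-!
Presentations of omega-categories by generators and relations, with their universal property.
Relations are pairs of raw terms, imposed only when both sides are well formed.
-/

namespace Vale.Agent.P213

open CategoryTheory

universe u

/-- Raw terms in the operations of an omega-category. -/
inductive Tm (G : Type u) : Type u
  | gen (g : G) : Tm G
  | src (i : ℕ) (x : Tm G) : Tm G
  | tgt (i : ℕ) (x : Tm G) : Tm G
  | comp (i : ℕ) (x y : Tm G) : Tm G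

/-- Generators with a dimension bound, and relations. -/
structure Presentation where
  Gen : Type u
  dim : Gen → ℕ
  rel : Tm Gen → Tm Gen → Prop

namespace Presentation

variable (P : Presentation.{u})

open Tm in
/-- Both terms are well formed and equal in the presented omega-category. -/
inductive Rel : Tm P.Gen → Tm P.Gen → Prop
  | gen (g : P.Gen) : Rel (gen g) (gen g)
  | dim (g : P.Gen) : Rel (src (P.dim g) (gen g)) (gen g)
  | rel {a b} : P.rel a b → Rel a a → Rel b b → Rel a b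
  | symm {a b} : Rel a b → Rel b a
  | trans {a b c} : Rel a b → Rel b c → Rel a c
  | srcCongr {i x x'} : Rel x x' → Rel (src i x) (src i x')
  | tgtCongr {i x x'} : Rel x x' → Rel (tgt i x) (tgt i x')
  | compCongr {i x x' y y'} : Rel x x' → Rel y y' → Rel (tgt i x) (src i y) →
      Rel (comp i x y) (comp i x' y')
  | srcSrc {i j x} : i ≤ j → Rel x x → Rel (src j (src i x)) (src i x)
  | srcTgt {i j x} : i ≤ j → Rel x x → Rel (src j (tgt i x)) (tgt i x)
  | tgtSrc {i j x} : i ≤ j → Rel x x → Rel (tgt j (src i x)) (src i x)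
  | tgtTgt {i j x} : i ≤ j → Rel x x → Rel (tgt j (tgt i x)) (tgt i x)
  | srcSrcLt {i j x} : i < j → Rel x x → Rel (src i (src j x)) (src i x)
  | srcTgtLt {i j x} : i < j → Rel x x → Rel (src i (tgt j x)) (src i x)
  | tgtSrcLt {i j x} : i < j → Rel x x → Rel (tgt i (src j x)) (tgt i x)
  | tgtTgtLt {i j x} : i < j → Rel x x → Rel (tgt i (tgt j x)) (tgt i x)
  | srcComp {i x y} : Rel x x → Rel y y → Rel (tgt i x) (src i y) →
      Rel (src i (comp i x y)) (src i x)
  | tgtComp {i x y} : Rel x x → Rel y y → Rel (tgt i x) (src i y) →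
      Rel (tgt i (comp i x y)) (tgt i y)
  | srcCompLt {i j x y} : i < j → Rel x x → Rel y y → Rel (tgt i x) (src i y) →
      Rel (src j (comp i x y)) (comp i (src j x) (src j y))
  | tgtCompLt {i j x y} : i < j → Rel x x → Rel y y → Rel (tgt i x) (src i y) →
      Rel (tgt j (comp i x y)) (comp i (tgt j x) (tgt j y))
  | srcId {i x} : Rel x x → Rel (comp i (src i x) x) x
  | idTgt {i x} : Rel x x → Rel (comp i x (tgt i x)) x
  | assoc {i x y z} : Rel x x → Rel y y → Rel z z → Rel (tgt i x) (src i y) →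
      Rel (tgt i y) (src i z) → Rel (comp i (comp i x y) z) (comp i x (comp i y z))
  | interchange {i j x y z w} : i < j → Rel x x → Rel y y → Rel z z → Rel w w →
      Rel (tgt j x) (src j y) → Rel (tgt j z) (src j w) →
      Rel (tgt i x) (src i z) → Rel (tgt i y) (src i w) →
      Rel (comp i (comp j x y) (comp j z w)) (comp j (comp i x z) (comp i y w))

/-- Well formed terms. -/
def WF : Tm P.Gen → Prop
  | .gen _ => True
  | .src _ x => WF x
  | .tgt _ x => WF x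
  | .comp i x y => WF x ∧ WF y ∧ P.Rel (.tgt i x) (.src i y)

variable {P}

theorem Rel.left {a b} (h : P.Rel a b) : P.Rel a a := h.trans h.symm

theorem Rel.right {a b} (h : P.Rel a b) : P.Rel b b := h.symm.trans h

theorem rel_self_of_wf : ∀ {t : Tm P.Gen}, P.WF t → P.Rel t t
  | .gen g, _ => .gen g
  | .src _ _, h => .srcCongr (rel_self_of_wf h)
  | .tgt _ _, h => .tgtCongr (rel_self_of_wf h)
  | .comp _ _ _, h => .compCongr (rel_self_of_wf h.1) (rel_self_of_wf h.2.1) h.2.2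

theorem Rel.wf {a b} (h : P.Rel a b) : P.WF a ∧ P.WF b := by
  induction h with
  | gen g => exact ⟨trivial, trivial⟩
  | dim g => exact ⟨trivial, trivial⟩
  | rel _ _ _ ih ih' => exact ⟨ih.1, ih'.1⟩
  | symm _ ih => exact ⟨ih.2, ih.1⟩
  | trans _ _ ih ih' => exact ⟨ih.1, ih'.2⟩
  | srcCongr _ ih => exact ih
  | tgtCongr _ ih => exact ih
  | compCongr hx hy h ih ih' _ =>
    exact ⟨⟨ih.1, ih'.1, h⟩,
      ⟨ih.2, ih'.2, ((Rel.tgtCongr hx).symm.trans h).trans (.srcCongr hy)⟩⟩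
  | srcSrc _ _ ih => exact ih
  | srcTgt _ _ ih => exact ih
  | tgtSrc _ _ ih => exact ih
  | tgtTgt _ _ ih => exact ih
  | srcSrcLt _ _ ih => exact ih
  | srcTgtLt _ _ ih => exact ih
  | tgtSrcLt _ _ ih => exact ih
  | tgtTgtLt _ _ ih => exact ih
  | srcComp _ _ h ihx ihy _ => exact ⟨⟨ihx.1, ihy.1, h⟩, ihx.1⟩
  | tgtComp _ _ h ihx ihy _ => exact ⟨⟨ihx.1, ihy.1, h⟩, ihy.1⟩
  | srcCompLt hij hx hy h ihx ihy _ =>
    exact ⟨⟨ihx.1, ihy.1, h⟩, ihx.1, ihy.1,
      ((Rel.tgtSrcLt hij hx).trans h).trans (Rel.srcSrcLt hij hy).symm⟩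
  | tgtCompLt hij hx hy h ihx ihy _ =>
    exact ⟨⟨ihx.1, ihy.1, h⟩, ihx.1, ihy.1,
      ((Rel.tgtTgtLt hij hx).trans h).trans (Rel.srcTgtLt hij hy).symm⟩
  | srcId hx ih => exact ⟨⟨ih.1, ih.1, .tgtSrc le_rfl hx⟩, ih.1⟩
  | idTgt hx ih => exact ⟨⟨ih.1, ih.1, (Rel.srcTgt le_rfl hx).symm⟩, ih.1⟩
  | assoc hx hy hz h h' ihx ihy ihz _ _ =>
    exact ⟨⟨⟨ihx.1, ihy.1, h⟩, ihz.1, (Rel.tgtComp hx hy h).trans h'⟩,
      ihx.1, ⟨ihy.1, ihz.1, h'⟩, h.trans (Rel.srcComp hy hz h').symm⟩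
  | @interchange i j x y z w hij hx hy hz hw h1 h2 h4 h5 ihx ihy ihz ihw _ _ _ _ =>
    refine ⟨⟨⟨ihx.1, ihy.1, h1⟩, ⟨ihz.1, ihw.1, h2⟩, ?_⟩,
      ⟨ihx.1, ihz.1, h4⟩, ⟨ihy.1, ihw.1, h5⟩, ?_⟩
    · have e1 : P.Rel (.tgt i (.comp j x y)) (.tgt i y) :=
        ((Rel.tgtTgtLt hij (.compCongr hx hy h1)).symm.trans
          (.tgtCongr (.tgtComp hx hy h1))).trans (.tgtTgtLt hij hy)
      have e2 : P.Rel (.src i (.comp j z w)) (.src i z) :=
        ((Rel.srcSrcLt hij (.compCongr hz hw h2)).symm.trans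
          (.srcCongr (.srcComp hz hw h2))).trans (.srcSrcLt hij hz)
      have e3 : P.Rel (.tgt i y) (.tgt i x) :=
        ((Rel.tgtSrcLt hij hy).symm.trans (.tgtCongr h1.symm)).trans (.tgtTgtLt hij hx)
      exact ((e1.trans e3).trans h4).trans e2.symm
    · have c := Rel.compCongr (i := i) h1 h2
        (((Rel.tgtTgtLt hij hx).trans h4).trans (Rel.srcTgtLt hij hz).symm)
      exact ((Rel.tgtCompLt hij hx hz h4).trans c).trans (Rel.srcCompLt hij hy hw h5).symm

theorem Rel.compat {i x y} (h : P.Rel (.comp i x y) (.comp i x y)) :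
    P.Rel x x ∧ P.Rel y y ∧ P.Rel (.tgt i x) (.src i y) :=
  ⟨rel_self_of_wf h.wf.1.1, rel_self_of_wf h.wf.1.2.1, h.wf.1.2.2⟩

theorem Rel.src_mono {i j : ℕ} {x} (h : P.Rel (.src i x) x) (hij : i ≤ j) :
    P.Rel (.src j x) x :=
  ((Rel.srcCongr h.symm).trans (.srcSrc hij h.right)).trans h

variable (P)

theorem exists_fixed : ∀ {t : Tm P.Gen}, P.WF t → ∃ k, ∀ j, k ≤ j → P.Rel (.src j t) t
  | .gen g, _ => ⟨P.dim g, fun _ hj => (Rel.dim g).src_mono hj⟩
  | .src i _, h => ⟨i, fun _ hj => .srcSrc hj (rel_self_of_wf h)⟩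
  | .tgt i _, h => ⟨i, fun _ hj => .srcTgt hj (rel_self_of_wf h)⟩
  | .comp i x y, h => by
    obtain ⟨k, hk⟩ := exists_fixed h.1
    obtain ⟨l, hl⟩ := exists_fixed h.2.1
    refine ⟨k + l + i + 1, fun j hj => ?_⟩
    exact (Rel.srcCompLt (by omega) (rel_self_of_wf h.1) (rel_self_of_wf h.2.1) h.2.2).trans
      (.compCongr (hk j (by omega)) (hl j (by omega))
        (((Rel.tgtSrcLt (by omega) (rel_self_of_wf h.1)).trans h.2.2).trans
          (Rel.srcSrcLt (by omega) (rel_self_of_wf h.2.1)).symm))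

theorem fixed_of_dim {n : ℕ} (hn : ∀ g, P.dim g ≤ n) :
    ∀ {t : Tm P.Gen}, P.WF t → P.Rel (.src n t) t
  | .gen g, _ => (Rel.dim g).src_mono (hn g)
  | .src i x, h => by
    have hx : P.WF x := h
    rcases Nat.lt_or_ge n i with hi | hi
    · have e := (fixed_of_dim hn hx).src_mono hi.le
      exact ((Rel.srcCongr e).trans (fixed_of_dim hn hx)).trans e.symm
    · exact .srcSrc hi (rel_self_of_wf hx)
  | .tgt i x, h => by
    have hx : P.WF x := h
    rcases Nat.lt_or_ge n i with hi | hi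
    · have e := (fixed_of_dim hn hx).src_mono hi.le
      have e' : P.Rel (.tgt i x) x :=
        ((Rel.tgtCongr e.symm).trans (.tgtSrc le_rfl (rel_self_of_wf hx))).trans e
      exact ((Rel.srcCongr e').trans (fixed_of_dim hn hx)).trans e'.symm
    · exact .srcTgt hi (rel_self_of_wf hx)
  | .comp i x y, h => by
    have hx := rel_self_of_wf h.1
    have hy := rel_self_of_wf h.2.1
    have ex := fixed_of_dim hn h.1
    have ey := fixed_of_dim hn h.2.1
    rcases Nat.lt_or_ge i n with hi | hi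
    · exact (Rel.srcCompLt hi hx hy h.2.2).trans (.compCongr ex ey
        (((Rel.tgtSrcLt hi hx).trans h.2.2).trans (Rel.srcSrcLt hi hy).symm))
    · have e := ex.src_mono hi
      have e' : P.Rel x (.src i y) :=
        (((Rel.tgtCongr e.symm).trans (.tgtSrc le_rfl hx)).trans e).symm.trans h.2.2
      have q : P.Rel (.comp i x y) y := (Rel.compCongr e' hy h.2.2).trans (.srcId hy)
      exact ((Rel.srcCongr q).trans ey).trans q.symm

instance setoid : Setoid {t : Tm P.Gen // P.Rel t t} where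
  r a b := P.Rel a.1 b.1
  iseqv := ⟨fun a => a.2, fun h => h.symm, fun h h' => h.trans h'⟩

/-- Cells of the presented omega-category. -/
def Cell : Type u := Quotient P.setoid

variable {P}

/-- The class of a well formed term. -/
def cls (t : Tm P.Gen) (h : P.Rel t t) : P.Cell := Quotient.mk P.setoid ⟨t, h⟩

theorem mk_eq {t t' : Tm P.Gen} {h : P.Rel t t} {h' : P.Rel t' t'} (e : P.Rel t t') :
    cls t h = cls t' h' := Quotient.sound e

theorem rel_of_mk_eq {t t' : Tm P.Gen} {h : P.Rel t t} {h' : P.Rel t' t'}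
    (e : cls t h = cls t' h') : P.Rel t t' := Quotient.exact (s := P.setoid) e

theorem mk_surj (q : P.Cell) : ∃ t h, cls t h = q :=
  Quotient.inductionOn q fun a => ⟨a.1, a.2, rfl⟩

/-- A representative. -/
noncomputable def rep (q : P.Cell) : {t : Tm P.Gen // P.Rel t t} := Quotient.out q

theorem rep_mk (t : Tm P.Gen) (h : P.Rel t t) : P.Rel (rep (cls t h)).1 t :=
  Quotient.mk_out (s := P.setoid) (⟨t, h⟩ : {t : Tm P.Gen // P.Rel t t})

theorem mk_rep (q : P.Cell) : cls (rep q).1 (rep q).2 = q := Quotient.out_eq q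

/-- Source in the presented omega-category. -/
noncomputable def srcQ (i : ℕ) (q : P.Cell) : P.Cell :=
  cls (.src i (rep q).1) (.srcCongr (rep q).2)

/-- Target in the presented omega-category. -/
noncomputable def tgtQ (i : ℕ) (q : P.Cell) : P.Cell :=
  cls (.tgt i (rep q).1) (.tgtCongr (rep q).2)

theorem srcQ_mk (i : ℕ) (t : Tm P.Gen) (h : P.Rel t t) :
    srcQ i (cls t h) = cls (.src i t) (.srcCongr h) := mk_eq (.srcCongr (rep_mk t h))

theorem tgtQ_mk (i : ℕ) (t : Tm P.Gen) (h : P.Rel t t) :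
    tgtQ i (cls t h) = cls (.tgt i t) (.tgtCongr h) := mk_eq (.tgtCongr (rep_mk t h))

theorem compat_mk {i : ℕ} {s t : Tm P.Gen} {hs : P.Rel s s} {ht : P.Rel t t}
    (h : tgtQ i (cls s hs) = srcQ i (cls t ht)) : P.Rel (.tgt i s) (.src i t) := by
  rw [tgtQ_mk, srcQ_mk] at h; exact rel_of_mk_eq h

open Classical in
/-- Composition in the presented omega-category; the first cell if they are not composable. -/
noncomputable def compQ (i : ℕ) (p q : P.Cell) : P.Cell :=
  if h : tgtQ i p = srcQ i q then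
    cls (.comp i (rep p).1 (rep q).1) (.compCongr (rep p).2 (rep q).2 (rel_of_mk_eq h))
  else p

theorem compQ_mk {i : ℕ} {s t : Tm P.Gen} {hs : P.Rel s s} {ht : P.Rel t t}
    (h : tgtQ i (cls s hs) = srcQ i (cls t ht)) :
    compQ i (cls s hs) (cls t ht) = cls (.comp i s t) (.compCongr hs ht (compat_mk h)) := by
  rw [compQ, dif_pos h]
  exact mk_eq (.compCongr (rep_mk s hs) (rep_mk t ht) (rel_of_mk_eq h))

theorem compQ_rep {i : ℕ} {p q : P.Cell} (h : tgtQ i p = srcQ i q) :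
    compQ i p q =
      cls (.comp i (rep p).1 (rep q).1) (.compCongr (rep p).2 (rep q).2 (rel_of_mk_eq h)) := by
  rw [compQ, dif_pos h]

theorem compQ_cls {i : ℕ} {s t : Tm P.Gen} {hs : P.Rel s s} {ht : P.Rel t t}
    (h : P.Rel (.tgt i s) (.src i t)) :
    compQ i (cls s hs) (cls t ht) = cls (.comp i s t) (.compCongr hs ht h) :=
  compQ_mk ((tgtQ_mk i s hs).trans ((mk_eq h).trans (srcQ_mk i t ht).symm))

variable (P)

/-- The presented omega-category. -/
noncomputable def cat : OmCat.{u} where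
  carrier := P.Cell
  s := srcQ
  t := tgtQ
  comp := compQ
  ss i j q := by
    obtain ⟨x, hx, rfl⟩ := mk_surj q
    simp only [srcQ_mk]
    rcases Nat.lt_or_ge i j with h | h
    · rw [min_eq_left h.le]; exact mk_eq (.srcSrcLt h hx)
    · rw [min_eq_right h]; exact mk_eq (.srcSrc h hx)
  st i j q := by
    obtain ⟨x, hx, rfl⟩ := mk_surj q
    simp only [srcQ_mk, tgtQ_mk]
    split_ifs with h
    · exact mk_eq (.srcTgtLt h hx)
    · exact mk_eq (.srcTgt (not_lt.1 h) hx)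
  ts i j q := by
    obtain ⟨x, hx, rfl⟩ := mk_surj q
    simp only [srcQ_mk, tgtQ_mk]
    split_ifs with h
    · exact mk_eq (.tgtSrcLt h hx)
    · exact mk_eq (.tgtSrc (not_lt.1 h) hx)
  tt i j q := by
    obtain ⟨x, hx, rfl⟩ := mk_surj q
    simp only [tgtQ_mk]
    rcases Nat.lt_or_ge i j with h | h
    · rw [min_eq_left h.le]; exact mk_eq (.tgtTgtLt h hx)
    · rw [min_eq_right h]; exact mk_eq (.tgtTgt h hx)
  s_comp i n p q h := by
    obtain ⟨x, hx, rfl⟩ := mk_surj p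
    obtain ⟨y, hy, rfl⟩ := mk_surj q
    have hr := compat_mk h
    rw [compQ_mk h]
    simp only [srcQ_mk]
    split_ifs with hi
    · rcases Nat.lt_or_eq_of_le hi with hlt | rfl
      · exact mk_eq (((Rel.srcSrcLt hlt (.compCongr hx hy hr)).symm.trans
          (.srcCongr (.srcComp hx hy hr))).trans (.srcSrcLt hlt hx))
      · exact mk_eq (.srcComp hx hy hr)
    · have hni : n < i := not_le.1 hi
      rw [compQ_cls (((Rel.tgtSrcLt hni hx).trans hr).trans (Rel.srcSrcLt hni hy).symm)]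
      exact mk_eq (.srcCompLt hni hx hy hr)
  t_comp i n p q h := by
    obtain ⟨x, hx, rfl⟩ := mk_surj p
    obtain ⟨y, hy, rfl⟩ := mk_surj q
    have hr := compat_mk h
    rw [compQ_mk h]
    simp only [tgtQ_mk]
    split_ifs with hi
    · rcases Nat.lt_or_eq_of_le hi with hlt | rfl
      · exact mk_eq (((Rel.tgtTgtLt hlt (.compCongr hx hy hr)).symm.trans
          (.tgtCongr (.tgtComp hx hy hr))).trans (.tgtTgtLt hlt hy))
      · exact mk_eq (.tgtComp hx hy hr)
    · have hni : n < i := not_le.1 hi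
      rw [compQ_cls (((Rel.tgtTgtLt hni hx).trans hr).trans (Rel.srcTgtLt hni hy).symm)]
      exact mk_eq (.tgtCompLt hni hx hy hr)
  id_comp i q := by
    obtain ⟨x, hx, rfl⟩ := mk_surj q
    rw [srcQ_mk, compQ_cls (Rel.tgtSrc le_rfl hx)]
    exact mk_eq (.srcId hx)
  comp_id i q := by
    obtain ⟨x, hx, rfl⟩ := mk_surj q
    rw [tgtQ_mk, compQ_cls (Rel.srcTgt le_rfl hx).symm]
    exact mk_eq (.idTgt hx)
  assoc i p q r h₁ h₂ := by
    obtain ⟨x, hx, rfl⟩ := mk_surj p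
    obtain ⟨y, hy, rfl⟩ := mk_surj q
    obtain ⟨z, hz, rfl⟩ := mk_surj r
    have e := compat_mk h₁
    have e' := compat_mk h₂
    rw [compQ_mk h₁, compQ_mk h₂, compQ_cls ((Rel.tgtComp hx hy e).trans e'),
      compQ_cls (e.trans (Rel.srcComp hy hz e').symm)]
    exact mk_eq (.assoc hx hy hz e e')
  interchange i j p p' q q' hij h₁ h₂ h₃ := by
    obtain ⟨x, hx, rfl⟩ := mk_surj p
    obtain ⟨x', hx', rfl⟩ := mk_surj p'
    obtain ⟨y, hy, rfl⟩ := mk_surj q
    obtain ⟨y', hy', rfl⟩ := mk_surj q'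
    have e1 := compat_mk h₁
    have e2 := compat_mk h₂
    have e4 := compat_mk h₃
    have e5 : P.Rel (.tgt i x') (.src i y') :=
      ((((Rel.tgtSrcLt hij hx').symm.trans (.tgtCongr e1.symm)).trans (.tgtTgtLt hij hx)).trans
        e4).trans (((Rel.srcTgtLt hij hy).symm.trans (.srcCongr e2)).trans (.srcSrcLt hij hy'))
    have R := Rel.interchange hij hx hx' hy hy' e1 e2 e4 e5
    rw [compQ_mk h₁, compQ_mk h₂, compQ_mk h₃, compQ_cls e5, compQ_cls R.left.compat.2.2,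
      compQ_cls R.right.compat.2.2]
    exact mk_eq R
  bounded q := by
    obtain ⟨x, hx, rfl⟩ := mk_surj q
    obtain ⟨k, hk⟩ := P.exists_fixed hx.wf.1
    exact ⟨k, by rw [srcQ_mk]; exact mk_eq (hk k le_rfl)⟩

theorem isNCat_cat {n : ℕ∞} (hn : ∀ g, (P.dim g : ℕ∞) ≤ n) : IsNCat n P.cat := by
  intro i hi q
  obtain ⟨x, hx, rfl⟩ := mk_surj q
  show srcQ i (cls x hx) = cls x hx
  rw [srcQ_mk]
  exact mk_eq (P.fixed_of_dim (fun g => by exact_mod_cast (hn g).trans hi) hx.wf.1)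

/-- The cell of a generator. -/
def cell (g : P.Gen) : P.cat.carrier := cls (.gen g) (.gen g)

theorem src_cell_dim (g : P.Gen) : P.cat.s (P.dim g) (P.cell g) = P.cell g := by
  show srcQ (P.dim g) (cls (.gen g) (.gen g)) = cls (.gen g) (.gen g)
  rw [srcQ_mk]; exact mk_eq (.dim g)

section Lift

variable {P}
variable {Y : OmCat.{u}} (φ : P.Gen → Y.carrier)

/-- Evaluation of raw terms, as a partial function. -/
inductive Ev : Tm P.Gen → Y.carrier → Prop
  | gen (g : P.Gen) : Ev (.gen g) (φ g)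
  | src {i x a} : Ev x a → Ev (.src i x) (Y.s i a)
  | tgt {i x a} : Ev x a → Ev (.tgt i x) (Y.t i a)
  | comp {i x y a b} (h : Y.t i a = Y.s i b) :
      Ev x a → Ev y b → Ev (.comp i x y) (Y.comp i a b)

theorem Ev.unique {t : Tm P.Gen} {a b : Y.carrier} (h : Ev φ t a) (h' : Ev φ t b) : a = b := by
  induction h generalizing b with
  | gen g => cases h'; rfl
  | src _ ih => cases h' with | src h' => rw [ih h']
  | tgt _ ih => cases h' with | tgt h' => rw [ih h']
  | comp h _ _ ih ih' =>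
    cases h' with
    | comp k hx hy => rw [ih hx, ih' hy]

/-- Conditions under which `φ` extends to a functor. -/
structure Valid : Prop where
  dim : ∀ g, Y.s (P.dim g) (φ g) = φ g
  rel : ∀ {a b}, P.rel a b → ∀ {y z}, Ev φ a y → Ev φ b z → y = z

variable {φ}

theorem Valid.sound (hφ : Valid φ) {s t : Tm P.Gen} (h : P.Rel s t) :
    ∃ y, Ev φ s y ∧ Ev φ t y := by
  induction h with
  | gen g => exact ⟨_, .gen g, .gen g⟩
  | dim g => exact ⟨φ g, hφ.dim g ▸ .src (.gen g), .gen g⟩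
  | rel h _ _ ih ih' =>
    obtain ⟨y, hy, -⟩ := ih
    obtain ⟨z, hz, -⟩ := ih'
    obtain rfl := hφ.rel h hy hz
    exact ⟨y, hy, hz⟩
  | symm _ ih => obtain ⟨y, h1, h2⟩ := ih; exact ⟨y, h2, h1⟩
  | trans _ _ ih ih' =>
    obtain ⟨y, h1, h2⟩ := ih
    obtain ⟨z, h3, h4⟩ := ih'
    obtain rfl := h2.unique φ h3
    exact ⟨y, h1, h4⟩
  | srcCongr _ ih => obtain ⟨y, h1, h2⟩ := ih; exact ⟨_, .src h1, .src h2⟩
  | tgtCongr _ ih => obtain ⟨y, h1, h2⟩ := ih; exact ⟨_, .tgt h1, .tgt h2⟩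
  | compCongr _ _ _ ih ih' ih'' =>
    obtain ⟨a, ha, ha'⟩ := ih
    obtain ⟨b, hb, hb'⟩ := ih'
    obtain ⟨c, hc, hc'⟩ := ih''
    have e : Y.t _ a = Y.s _ b := ((Ev.tgt ha).unique φ hc).trans (hc'.unique φ (.src hb))
    exact ⟨_, .comp e ha hb, .comp e ha' hb'⟩
  | srcSrc hij _ ih =>
    obtain ⟨a, ha, -⟩ := ih
    exact ⟨_, .src (.src ha), (Y.s_s_of_le a hij).symm ▸ .src ha⟩
  | srcTgt hij _ ih =>
    obtain ⟨a, ha, -⟩ := ih
    exact ⟨_, .src (.tgt ha), (Y.s_t_of_le a hij).symm ▸ .tgt ha⟩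
  | tgtSrc hij _ ih =>
    obtain ⟨a, ha, -⟩ := ih
    exact ⟨_, .tgt (.src ha), (Y.t_s_of_le a hij).symm ▸ .src ha⟩
  | tgtTgt hij _ ih =>
    obtain ⟨a, ha, -⟩ := ih
    exact ⟨_, .tgt (.tgt ha), (Y.t_t_of_le a hij).symm ▸ .tgt ha⟩
  | srcSrcLt hij _ ih =>
    obtain ⟨a, ha, -⟩ := ih
    exact ⟨_, .src (.src ha), (Y.s_s_of_lt a hij).symm ▸ .src ha⟩
  | srcTgtLt hij _ ih =>
    obtain ⟨a, ha, -⟩ := ih
    exact ⟨_, .src (.tgt ha), (Y.s_t_of_lt a hij).symm ▸ .src ha⟩
  | tgtSrcLt hij _ ih =>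
    obtain ⟨a, ha, -⟩ := ih
    exact ⟨_, .tgt (.src ha), (Y.t_s_of_lt a hij).symm ▸ .tgt ha⟩
  | tgtTgtLt hij _ ih =>
    obtain ⟨a, ha, -⟩ := ih
    exact ⟨_, .tgt (.tgt ha), (Y.t_t_of_lt a hij).symm ▸ .tgt ha⟩
  | srcComp _ _ _ ih ih' ih'' =>
    obtain ⟨a, ha, -⟩ := ih
    obtain ⟨b, hb, -⟩ := ih'
    obtain ⟨c, hc, hc'⟩ := ih''
    have e := ((Ev.tgt ha).unique φ hc).trans (hc'.unique φ (.src hb))
    exact ⟨_, .src (.comp e ha hb), (Y.s_comp_of_le a b e le_rfl).symm ▸ .src ha⟩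
  | tgtComp _ _ _ ih ih' ih'' =>
    obtain ⟨a, ha, -⟩ := ih
    obtain ⟨b, hb, -⟩ := ih'
    obtain ⟨c, hc, hc'⟩ := ih''
    have e := ((Ev.tgt ha).unique φ hc).trans (hc'.unique φ (.src hb))
    exact ⟨_, .tgt (.comp e ha hb), (Y.t_comp_of_le a b e le_rfl).symm ▸ .tgt hb⟩
  | srcCompLt hij _ _ _ ih ih' ih'' =>
    obtain ⟨a, ha, -⟩ := ih
    obtain ⟨b, hb, -⟩ := ih'
    obtain ⟨c, hc, hc'⟩ := ih''
    have e := ((Ev.tgt ha).unique φ hc).trans (hc'.unique φ (.src hb))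
    exact ⟨_, .src (.comp e ha hb), (Y.s_comp_of_lt a b e hij).symm ▸
      .comp (Y.compat_s e hij) (.src ha) (.src hb)⟩
  | tgtCompLt hij _ _ _ ih ih' ih'' =>
    obtain ⟨a, ha, -⟩ := ih
    obtain ⟨b, hb, -⟩ := ih'
    obtain ⟨c, hc, hc'⟩ := ih''
    have e := ((Ev.tgt ha).unique φ hc).trans (hc'.unique φ (.src hb))
    exact ⟨_, .tgt (.comp e ha hb), (Y.t_comp_of_lt a b e hij).symm ▸
      .comp (Y.compat_t e hij) (.tgt ha) (.tgt hb)⟩
  | @srcId i x _ ih =>
    obtain ⟨a, ha, -⟩ := ih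
    have e := Y.t_s_of_le (i := i) a le_rfl
    exact ⟨_, .comp e (.src ha) ha, (Y.id_comp _ a).symm ▸ ha⟩
  | @idTgt i x _ ih =>
    obtain ⟨a, ha, -⟩ := ih
    have e := (Y.s_t_of_le (i := i) a le_rfl).symm
    exact ⟨_, .comp e ha (.tgt ha), (Y.comp_id _ a).symm ▸ ha⟩
  | assoc _ _ _ _ _ ih ih' ih'' ih1 ih2 =>
    obtain ⟨a, ha, -⟩ := ih
    obtain ⟨b, hb, -⟩ := ih'
    obtain ⟨c, hc, -⟩ := ih''
    obtain ⟨d, hd, hd'⟩ := ih1
    obtain ⟨d', he, he'⟩ := ih2
    have e1 := ((Ev.tgt ha).unique φ hd).trans (hd'.unique φ (.src hb))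
    have e3 := ((Ev.tgt hb).unique φ he).trans (he'.unique φ (.src hc))
    have e2 := (Y.t_comp_of_le a b e1 le_rfl).trans e3
    have e4 := e1.trans (Y.s_comp_of_le b c e3 le_rfl).symm
    exact ⟨_, .comp e2 (.comp e1 ha hb) hc,
      (Y.assoc _ a b c e1 e3).symm ▸ .comp e4 ha (.comp e3 hb hc)⟩
  | interchange hij _ _ _ _ _ _ _ _ ihx ihy ihz ihw ih1 ih2 ih4 ih5 =>
    obtain ⟨a, ha, -⟩ := ihx
    obtain ⟨b, hb, -⟩ := ihy
    obtain ⟨c, hc, -⟩ := ihz
    obtain ⟨d, hd, -⟩ := ihw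
    obtain ⟨_, p, p'⟩ := ih1
    obtain ⟨_, q, q'⟩ := ih2
    obtain ⟨_, r, r'⟩ := ih4
    obtain ⟨_, s, s'⟩ := ih5
    have e1 := ((Ev.tgt ha).unique φ p).trans (p'.unique φ (.src hb))
    have e2 := ((Ev.tgt hc).unique φ q).trans (q'.unique φ (.src hd))
    have e4 := ((Ev.tgt ha).unique φ r).trans (r'.unique φ (.src hc))
    have e5 := ((Ev.tgt hb).unique φ s).trans (s'.unique φ (.src hd))
    have eby : Y.t _ b = Y.t _ a :=
      (Y.t_s_of_lt b hij).symm.trans
        ((congrArg (Y.t _) e1.symm).trans (Y.t_t_of_lt a hij))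
    have e3 := (Y.t_comp_of_le a b e1 hij.le).trans
      ((eby.trans e4).trans (Y.s_comp_of_le c d e2 hij.le).symm)
    have e6 := (Y.t_comp_of_lt a c e4 hij).trans
      ((congrArg₂ (Y.comp _) e1 e2).trans (Y.s_comp_of_lt b d e5 hij).symm)
    exact ⟨_, .comp e3 (.comp e1 ha hb) (.comp e2 hc hd),
      (Y.interchange _ _ a b c d hij e1 e2 e4).symm ▸
        .comp e6 (.comp e4 ha hc) (.comp e5 hb hd)⟩

/-- The value of a class. -/
noncomputable def Valid.value (hφ : Valid φ) (q : P.Cell) : Y.carrier :=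
  (hφ.sound (rep q).2).choose

theorem Valid.ev_value (hφ : Valid φ) (q : P.Cell) : Ev φ (rep q).1 (hφ.value q) :=
  (hφ.sound (rep q).2).choose_spec.1

theorem Valid.value_mk (hφ : Valid φ) {t : Tm P.Gen} {h : P.Rel t t} {y : Y.carrier}
    (hy : Ev φ t y) : hφ.value (cls t h) = y := by
  obtain ⟨z, hz, hz'⟩ := hφ.sound (rep_mk t h)
  exact ((hφ.ev_value _).unique φ hz).trans (hz'.unique φ hy)

/-- The functor extending `φ`. -/
noncomputable def lift (hφ : Valid φ) : P.cat ⟶ Y where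
  toFun := hφ.value
  map_s i q := hφ.value_mk (.src (hφ.ev_value q))
  map_t i q := hφ.value_mk (.tgt (hφ.ev_value q))
  map_comp i p q h := by
    have h' : Y.t i (hφ.value p) = Y.s i (hφ.value q) := by
      rw [← hφ.value_mk (.tgt (hφ.ev_value p)) (h := .tgtCongr (rep p).2),
        ← hφ.value_mk (.src (hφ.ev_value q)) (h := .srcCongr (rep q).2)]
      exact congrArg hφ.value h
    exact (congrArg hφ.value (compQ_rep h)).trans
      (hφ.value_mk (.comp h' (hφ.ev_value p) (hφ.ev_value q)))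

theorem lift_cell (hφ : Valid φ) (g : P.Gen) :
    Fun.toFun (lift hφ) (P.cell g) = φ g := hφ.value_mk (.gen g)

/-- Functors out of a presented omega-category are determined by the generators. -/
theorem hom_ext {f g : P.cat ⟶ Y}
    (h : ∀ x, Fun.toFun f (P.cell x) = Fun.toFun g (P.cell x)) : f = g := by
  have key : ∀ t : Tm P.Gen, ∀ ht : P.Rel t t,
      Fun.toFun f (cls t ht) = Fun.toFun g (cls t ht) := by
    intro t
    induction t with
    | gen x => exact fun _ => h x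
    | src i x ih =>
      intro ht
      have hx := rel_self_of_wf (t := x) ht.wf.1
      have e : cls (.src i x) ht = P.cat.s i (cls x hx) := (srcQ_mk i x hx).symm
      exact (congrArg f.toFun e).trans ((f.map_s i _).trans
        ((congrArg (Y.s i) (ih hx)).trans
          ((g.map_s i _).symm.trans (congrArg g.toFun e.symm))))
    | tgt i x ih =>
      intro ht
      have hx := rel_self_of_wf (t := x) ht.wf.1
      have e : cls (.tgt i x) ht = P.cat.t i (cls x hx) := (tgtQ_mk i x hx).symm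
      exact (congrArg f.toFun e).trans ((f.map_t i _).trans
        ((congrArg (Y.t i) (ih hx)).trans
          ((g.map_t i _).symm.trans (congrArg g.toFun e.symm))))
    | comp i x y ihx ihy =>
      intro ht
      obtain ⟨hx, hy, hxy⟩ := ht.compat
      have hc : P.cat.t i (cls x hx) = P.cat.s i (cls y hy) :=
        (tgtQ_mk i x hx).trans ((mk_eq hxy).trans (srcQ_mk i y hy).symm)
      have e : cls (.comp i x y) ht = P.cat.comp i (cls x hx) (cls y hy) := (compQ_mk hc).symm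
      exact (congrArg f.toFun e).trans ((f.map_comp _ _ _ hc).trans
        ((congrArg₂ (Y.comp i) (ihx hx) (ihy hy)).trans
          ((g.map_comp _ _ _ hc).symm.trans (congrArg g.toFun e.symm))))
  apply hom_ext'
  intro q
  obtain ⟨t, ht, rfl⟩ := mk_surj q
  exact key t ht

end Lift

end Presentation

end Vale.Agent.P213
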